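import Mathlib

/-!
# ROW 252 (S0492), unit S4A (post BP-252-S4A, architect helper23), file 1: THE ABSTRACT FRAME OF SEC. 4.1.      Definitions only (no `sorry`).   MATHLIB ONLY.   Prefix `k4a_` / `K4a`.

Paper: `04-critical-paths.tex` l.1-340 (extremal rates, composition, positive rate, critical paths (1)-(4), zero depth, excluded improvements).

## The frame
`K4aFr` = DATA (no proofs): the class `Pb` of homogeneous exact problems WITH THE ANGULAR CAP (model version, `j, S, η` fixed), length `len`, profile `prof`;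
`At E` = the HOMOGENISED KNOWN ATLASES of `E` (chart systems whose label is known by the terminal observation `p_L`; depth `dep ∈ [0, L]`, horizon exponent `hor`, narrowness exponent `nar`;
a prepared true terminal system is an atlas of depth `L`), `Tru` = prepared true system; the RELATIONS `Rem E A F` (`F` is a homogeneous remaining problem of `E` through `A`, original exponent units),
`Lift E A F B A'` (`A'` is the lift of `B`), `Co E r G` (`G` is the coarsening of `E` to the end point `r`), `CoAt E G B A` (the true terminal system `B` of the coarsening, read as an intermediate system `A` of `E`).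
The relations are DATA: the instantiation (Base/Seq, Base/Hubs) puts into them everything the consumers want to remember (explicit `norm`, `lift`, histories, layer assignments, witnesses).
`K4aFr.Hub` = the HYPOTHESES, one named field per fact of Secs. 2-3:  L2.5 (`prof_mono`, `prof_lip`), P2.16 (`hbound`), L2.13 (`rem_*`, `lift_*`), l.57-66 (`co_*`, `coat_*`), L3.5 (`ext`).
Universe polymorphic: sequences of one-scale problems `KbPb` live in `Type 1`.

## No outer sequence
The paper works with MAXIMIZING SEQUENCES `E_i ∈ C(d_i)`, `d_i → d_*`, `H(E_i) → k` and subsequences of `i`.   Here:  `X.Mx δ E  :⇔  E ∈ C(d_* + δ) ∧ (k - δ) len E ≤ H E`,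
and "for all large `i` on every maximizing sequence" is written `∃ δ > 0, ∀ E, X.Mx δ E → ..`.   All lengths are allowed and all statements are in RELATIVE units (no rescaling `N₀ ↦ N₀^L`).
Narrowness:  `X.NarLe δ' c E` = every true terminal system of `E` with horizon `≤ (k + δ') L` has narrowness `≤ c L`;   `X.Lam = {c | ∃ δ' > 0, ∀ δ > 0 (d_* + δ < 1), ∃ E ∈ Mx δ, NarLe δ' c E}`  (upwards closed);
`ℓ = sInf Lam`  (`ℓ = ∞` iff `Lam = ∅`).   This is `inf ω` of the paper:  `ω((E_i)) = lim_{δ'→0} limsup_i sup {nar / L}`.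
-/

set_option autoImplicit false

namespace Claimed.Agent.R252

universe u v

set_option linter.checkUnivs false in
/-- **the frame of Sec. 4.1** (data only) -/
structure K4aFr : Type (max (u + 1) (v + 1)) where
  /-- homogeneous exact problems with the angular cap -/
  Pb : Type u
  /-- length `L` -/
  len : Pb → ℝ
  /-- profile `f(r)`, `0 ≤ r ≤ L` -/
  prof : Pb → ℝ → ℝ
  /-- homogenised known atlases -/
  At : Pb → Type v
  /-- depth -/
  dep : ∀ {E : Pb}, At E → ℝ
  /-- horizon exponent -/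
  hor : ∀ {E : Pb}, At E → ℝ
  /-- narrowness exponent -/
  nar : ∀ {E : Pb}, At E → ℝ
  /-- prepared true system -/
  Tru : ∀ {E : Pb}, At E → Prop
  /-- `F` is a homogeneous remaining problem of `E` through the atlas -/
  Rem : ∀ E : Pb, At E → Pb → Prop
  /-- `Lift E A F B A'` : `A'` is the lift of the atlas `B` of `F` through `A` -/
  Lift : ∀ (E : Pb) (_ : At E) (F : Pb), At F → At E → Prop
  /-- `G` is the coarsening of `E` to the end point `r` -/
  Co : Pb → ℝ → Pb → Prop
  /-- the true terminal system `B` of the coarsening `G`, as an intermediate true system of `E` -/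
  CoAt : ∀ E G : Pb, At G → At E → Prop

namespace K4aFr

variable (X : K4aFr.{u, v})

/-- true terminal system -/
def TT {E : X.Pb} (A : X.At E) : Prop := X.Tru A ∧ X.dep A = X.len E

/-- the cap class `C(d)` (the angular cap is part of `Pb`), (2.6) -/
def InC (d : ℝ) (E : X.Pb) : Prop :=
  d < 1 ∧ ∀ r : ℝ, 0 ≤ r → r ≤ X.len E → X.prof E (X.len E) - X.prof E r ≤ d * (X.len E - r)

/-- the minimum horizon, Def 2.14 -/
noncomputable def H (E : X.Pb) : ℝ := sInf {h : ℝ | ∃ A : X.At E, X.TT A ∧ X.hor A = h}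

/-- bad problems exist -/
def Bad : Prop := ∃ (d : ℝ) (E : X.Pb), X.InC d E ∧ 0 < X.H E

/-- `d_*`, (4.1) -/
noncomputable def dst : ℝ := sInf {d : ℝ | ∃ E : X.Pb, X.InC d E ∧ 0 < X.H E}

/-- `k(d)`, (4.1) -/
noncomputable def kd (d : ℝ) : ℝ := sSup {x : ℝ | ∃ E : X.Pb, X.InC d E ∧ x = X.H E / X.len E}

/-- `k = lim_{d ↓ d_*} k(d)`, (4.1) -/
noncomputable def kst : ℝ := sInf {x : ℝ | ∃ d : ℝ, X.dst < d ∧ d < 1 ∧ x = X.kd d}

/-- `δ`-maximizing problems -/
def Mx (δ : ℝ) (E : X.Pb) : Prop := X.InC (X.dst + δ) E ∧ (X.kst - δ) * X.len E ≤ X.H E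

/-- every nearly optimal true terminal system has relative narrowness `≤ c` -/
def NarLe (δ' c : ℝ) (E : X.Pb) : Prop :=
  ∀ A : X.At E, X.TT A → X.hor A ≤ (X.kst + δ') * X.len E → X.nar A ≤ c * X.len E

/-- the upper bounds of `ℓ` -/
def Lam : Set ℝ := {c : ℝ | ∃ δ' : ℝ, 0 < δ' ∧ ∀ δ : ℝ, 0 < δ → X.dst + δ < 1 → ∃ E : X.Pb, X.Mx δ E ∧ X.NarLe δ' c E}

/-- `ℓ` (when `Lam` is nonempty) -/
noncomputable def ell : ℝ := sInf X.Lam

/-- **the hubs of Secs. 2-3 used by Sec. 4.1** -/
structure Hub : Prop where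
  len_pos : ∀ E, 0 < X.len E
  /-- L2.5 -/
  prof_mono : ∀ E r r', 0 ≤ r → r ≤ r' → r' ≤ X.len E → X.prof E r ≤ X.prof E r'
  /-- L2.5 -/
  prof_lip : ∀ E r r', 0 ≤ r → r ≤ r' → r' ≤ X.len E → X.prof E r' - X.prof E r ≤ r' - r
  dep_nonneg : ∀ E (A : X.At E), 0 ≤ X.dep A
  dep_le : ∀ E (A : X.At E), X.dep A ≤ X.len E
  hor_nonneg : ∀ E (A : X.At E), 0 ≤ X.hor A
  /-- `‖D_c‖ ≤ q K₀` -/
  nar_nonneg : ∀ E (A : X.At E), 0 ≤ X.nar A
  /-- P2.16: `H(E) ≤ L` -/
  hbound : ∀ E τ, 0 < τ → ∃ A : X.At E, X.TT A ∧ X.hor A ≤ X.len E + τ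
  /-- L2.13: normalisation through a known atlas of depth `< L` (the concrete hub `kb_norm` transports the angular cap only for `E` in some `C(d)`) -/
  rem_ex : ∀ E (A : X.At E) d, X.InC d E → X.dep A < X.len E → ∃ F, X.Rem E A F
  rem_len : ∀ E (A : X.At E) F, X.Rem E A F → X.len F = X.len E - X.dep A
  /-- (2.14) + (2.15) -/
  rem_prof : ∀ E (A : X.At E) F, X.Rem E A F → ∀ s, 0 ≤ s → s ≤ X.len F →
    X.prof F (X.len F) - X.prof F s ≤ X.prof E (X.len E) - X.prof E (X.dep A + s)
  /-- L2.13: a true terminal system of the remaining problem lifts to a true terminal system; time and narrowness exponents add, (2.17), (2.18) -/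
  lift_ex : ∀ E (A : X.At E) F, X.Rem E A F → ∀ B : X.At F, X.TT B → ∃ A' : X.At E, X.Lift E A F B A'
  lift_tt : ∀ E (A : X.At E) F (B : X.At F) (A' : X.At E), X.Lift E A F B A' → X.TT B → X.TT A'
  lift_hor : ∀ E (A : X.At E) F (B : X.At F) (A' : X.At E), X.Lift E A F B A' → X.hor A' = X.hor A + X.hor B
  lift_nar : ∀ E (A : X.At E) F (B : X.At F) (A' : X.At E), X.Lift E A F B A' → X.nar A' = X.nar A + X.nar B
  /-- 04 l.57-66: coarsening keeps the data and the profile on `[0, r]`; angular cap by L2.7 (`kb_coarse`, for `E` in some `C(d)`) -/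
  co_ex : ∀ E r d, X.InC d E → 0 < r → r < X.len E → ∃ G, X.Co E r G
  co_len : ∀ E r G, X.Co E r G → X.len G = r
  co_prof : ∀ E r G, X.Co E r G → ∀ x, 0 ≤ x → x ≤ r → X.prof G x = X.prof E x
  /-- a true terminal system of the coarsening, prepared (L2.10), is a true intermediate system of `E`, known by `p_r`, hence by `p_L` -/
  coat_ex : ∀ E r G, X.Co E r G → ∀ B : X.At G, X.TT B → ∃ A : X.At E, X.CoAt E G B A
  coat_tru : ∀ E G (B : X.At G) (A : X.At E), X.CoAt E G B A → X.Tru A
  coat_dep : ∀ E G (B : X.At G) (A : X.At E), X.CoAt E G B A → X.dep A = X.dep B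
  coat_hor : ∀ E G (B : X.At G) (A : X.At E), X.CoAt E G B A → X.hor A = X.hor B
  coat_nar : ∀ E G (B : X.At G) (A : X.At E), X.CoAt E G B A → X.nar A = X.nar B
  /-- L3.5: terminal time extension -/
  ext : ∀ d0 : ℝ, d0 < 1 → ∃ C c : ℝ, 0 < C ∧ 0 < c ∧ ∀ E, X.InC d0 E → ∀ A : X.At E, X.TT A → ∀ e : ℝ, 0 < e → e < X.hor A → e < c * X.len E →
    ∃ A' : X.At E, X.hor A' = X.hor A - e ∧ 0 < X.dep A' ∧ X.dep A' < X.len E ∧ X.len E - X.dep A' ≤ C * e

end K4aFr

/-- **a path**: `E 0` the base problem; for `g < n`: `G g` = coarsening of `E g`, `B g` = true terminal system of `G g`, `A g` = the same system in `E g`, `E (g+1)` = remaining problem;  `A n` = true terminal system of `E n`.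
(Values at `g > n`, and `G n`, `B n`, are junk.) -/
structure K4aPath (X : K4aFr.{u, v}) : Type (max u v) where
  n : ℕ
  E : ℕ → X.Pb
  A : ∀ g, X.At (E g)
  G : ℕ → X.Pb
  B : ∀ g, X.At (G g)

namespace K4aPath

variable {X : K4aFr.{u, v}} (p : K4aPath X)

/-- validity -/
structure Ok : Prop where
  co : ∀ g, g < p.n → X.Co (p.E g) (X.dep (p.A g)) (p.G g)
  tt : ∀ g, g < p.n → X.TT (p.B g)
  coat : ∀ g, g < p.n → X.CoAt (p.E g) (p.G g) (p.B g) (p.A g)
  rem : ∀ g, g < p.n → X.Rem (p.E g) (p.A g) (p.E (g + 1))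
  last : X.TT (p.A p.n)

/-- cumulative depth of the node `g`, in the units of `E 0` -/
noncomputable def cdep (g : ℕ) : ℝ := ∑ i ∈ Finset.range (g + 1), X.dep (p.A i)

/-- cumulative horizon exponent -/
noncomputable def chor (g : ℕ) : ℝ := ∑ i ∈ Finset.range (g + 1), X.hor (p.A i)

/-- cumulative narrowness exponent -/
noncomputable def cnar (g : ℕ) : ℝ := ∑ i ∈ Finset.range (g + 1), X.nar (p.A i)

/-- **the path follows the grid `r` with tolerance `θ`** (relative units of `E 0`); every segment has relative horizon `k ± θ` and relative narrowness `> c`; all problems met are `θ`-maximizing -/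
structure Fit (r : ℕ → ℝ) (c θ : ℝ) : Prop where
  ok : p.Ok
  full : p.cdep p.n = X.len (p.E 0)
  depth : ∀ g, g ≤ p.n → |p.cdep g - r g * X.len (p.E 0)| ≤ θ * X.len (p.E 0)
  dpos : ∀ g, g ≤ p.n → 0 < X.dep (p.A g)
  hor_le : ∀ g, g ≤ p.n → X.hor (p.A g) ≤ (X.kst + θ) * X.dep (p.A g)
  hor_ge : ∀ g, g ≤ p.n → (X.kst - θ) * X.dep (p.A g) ≤ X.hor (p.A g)
  nar_gt : ∀ g, g ≤ p.n → c * X.dep (p.A g) < X.nar (p.A g)
  mxE : ∀ g, g ≤ p.n → X.Mx θ (p.E g)
  mxG : ∀ g, g < p.n → X.Mx θ (p.G g)

/-- one more node in front -/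
def cons (E0 : X.Pb) (A0 : X.At E0) (G0 : X.Pb) (B0 : X.At G0) : K4aPath X where
  n := p.n + 1
  E := fun g => Nat.casesOn g E0 p.E
  A := fun g => Nat.casesOn (motive := fun g => X.At (Nat.casesOn g E0 p.E)) g A0 p.A
  G := fun g => Nat.casesOn g G0 p.G
  B := fun g => Nat.casesOn (motive := fun g => X.At (Nat.casesOn g G0 p.G)) g B0 p.B

/-- the path without its first node -/
def tail : K4aPath X where
  n := p.n - 1
  E := fun g => p.E (g + 1)
  A := fun g => p.A (g + 1)
  G := fun g => p.G (g + 1)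
  B := fun g => p.B (g + 1)

end K4aPath

/-- the path with one node -/
def K4aPath.one {X : K4aFr.{u, v}} (E0 : X.Pb) (A0 : X.At E0) : K4aPath X where
  n := 0
  E := fun _ => E0
  A := fun _ => A0
  G := fun _ => E0
  B := fun _ => A0

/-- a finite ordered grid of target depths ending at one: `0 < r 0 < r 1 < .. < r n = 1` -/
structure K4aGrid (n : ℕ) (r : ℕ → ℝ) : Prop where
  pos : 0 < r 0
  mono : ∀ g, g < n → r g < r (g + 1)
  last : r n = 1

end Claimed.Agent.R252
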