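import Claimed.Agent.R252.S4A.Path

/-!
# ROW 252, unit S4A (architect helper23), file 6: EXCLUDED IMPROVEMENTS (L4.6) AND THE EXITS OF SEC. 4.1.      CONTRACT file: every `sorry` is a leaf `L-252-S4A-X*`.   PAPER-FREE.

04-critical-paths.tex l.262-340.
## EXITS (for S4B = tangent diagonal / finite guard, and for the three regimes `ℓ = 0`, `0 < ℓ < ∞`, `ℓ = ∞`)
* `k4a_stage`      any `c ∉ Lam` (version 1: `c = -1`;  `ℓ = ∞`, i.e. `Lam = ∅`: every `c`):  for every grid and tolerance `θ`, EVERY `δ`-maximizing `E` carries a path `p.Fit r c θ`, has the linear profile within `θ L`,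
                   and every known atlas `B` of depth `< L` costs `hor B ≥ k dep B - θ L`   (= L4.6 (1): an improvement `dep = r_g + Δ'`, `hor ≤ h_g + k Δ'/2` is impossible as soon as `k Δ'/2 > 2 θ L`).
* `k4a_stage_fin`  `Lam ≠ ∅`, `ℓ = X.ell`:  for `ζ, η` there is `θ' > 0` such that for every grid and `θ` there is a base problem with a path `p.Fit r (ℓ - ζ) θ`, the same two properties, cumulative narrowness
                   `(ℓ - ζ) R_g ≤ W_g ≤ ℓ R_g + 2 ζ L`, and:  every known atlas `B` with `dep B ≤ (1 - η) L`, `hor B ≤ k dep B + θ' L` has `nar B ≤ ℓ dep B + 2 ζ L`   (= L4.6 (2): extra narrowness `Δ > 3 ζ L` at a node is impossible).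
* `k4a_zero_depth` (Rates.lean) = C4.5, first half;  second half = `k4a_stage` for a grid containing `b = 1/m`.
RULES: prove IN PLACE, statements frozen (write helper23 if one looks false or awkward), helper lemmas directly above, prefix `k4a_<leaf>_`.  All statements of the earlier files of the unit may be cited even while they are `sorry`.
-/

set_option autoImplicit false

namespace Claimed.Agent.R252

universe u v

variable {X : K4aFr.{u, v}}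

/-- **leaf L-252-S4A-X1.  EXCLUDED IMPROVEMENT (2), clean form** (l.330-338).
CHOICES.  `δ1` from `k4a_notLam hc (δ0/2)`;  `θ' := min (δ0/2) (δ1 η / 2)`;  `δ := min δ1 (δ1 η / 2)`.
Let `E ∈ Mx δ`, `NarLe δ0 c1 E`, `B` as stated, `L := len E`, `ρ := dep B ≤ (1 - η) L < L`.   `F` from `rem_ex`; `len F = L - ρ ≥ η L`;  `k4a_node_rem`: `InC (d_* + δ) F`,
`H F ≥ (k - δ) L - hor B ≥ k (L - ρ) - (δ + θ') L ≥ (k - δ1)(L - ρ)`  since `(δ + θ') L ≤ δ1 η L ≤ δ1 (L - ρ)`.   So `Mx δ1 F` (`k4a_inC_mono`).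
`B'` true terminal in `F`, `hor B' ≤ (k + δ0/2)(L - ρ)`, `c (L - ρ) < nar B'`.   Lift `T` (`lift_ex`, `lift_tt`, `lift_hor`, `lift_nar`): `hor T ≤ k ρ + θ' L + (k + δ0/2)(L - ρ) ≤ (k + δ0) L`; `NarLe`: `nar B + nar B' ≤ c1 L`. -/
theorem k4a_excl_nar (hX : X.Hub) {c c1 δ0 η : ℝ} (hc : c ∉ X.Lam) (hδ0 : 0 < δ0) (hη : 0 < η) (hη1 : η ≤ 1) :
    ∃ θ' δ : ℝ, 0 < θ' ∧ 0 < δ ∧ X.dst + δ < 1 ∧ ∀ E : X.Pb, X.Mx δ E → X.NarLe δ0 c1 E → ∀ B : X.At E, X.dep B ≤ (1 - η) * X.len E →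
      X.hor B ≤ X.kst * X.dep B + θ' * X.len E → X.nar B + c * (X.len E - X.dep B) ≤ c1 * X.len E := by
  obtain ⟨δ1, hδ1, hδ1', h1⟩ := k4a_notLam hc (δ' := δ0 / 2) (by linarith)
  have hp : 0 < δ1 * η / 2 := by positivity
  refine ⟨min (δ0 / 2) (δ1 * η / 2), min δ1 (δ1 * η / 2), lt_min (by linarith) hp, lt_min hδ1 hp,
    by linarith [min_le_left δ1 (δ1 * η / 2)], ?_⟩
  intro E hE hN B hBd hBh
  have hθa : min (δ0 / 2) (δ1 * η / 2) ≤ δ0 / 2 := min_le_left _ _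
  have hθb : min (δ0 / 2) (δ1 * η / 2) ≤ δ1 * η / 2 := min_le_right _ _
  have hδa : min δ1 (δ1 * η / 2) ≤ δ1 := min_le_left _ _
  have hδb : min δ1 (δ1 * η / 2) ≤ δ1 * η / 2 := min_le_right _ _
  generalize min (δ0 / 2) (δ1 * η / 2) = θ' at *
  generalize min δ1 (δ1 * η / 2) = δ at *
  have hL := hX.len_pos E
  have hρ0 := hX.dep_nonneg E B
  have hηL0 : 0 < η * X.len E := mul_pos hη hL
  have hρL : X.dep B < X.len E := by linarith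
  obtain ⟨F, hF⟩ := hX.rem_ex E B _ hE.1 hρL
  have hlen := hX.rem_len E B F hF
  obtain ⟨hFC, hFH⟩ := k4a_node_rem hX hE hF
  have hηL : η * X.len E ≤ X.len E - X.dep B := by linarith
  have hMx : X.Mx δ1 F := by
    refine ⟨k4a_inC_mono hFC (by linarith) hδ1', ?_⟩
    rw [hlen]
    have h2 : (δ + θ') * X.len E ≤ δ1 * (X.len E - X.dep B) := by
      calc (δ + θ') * X.len E ≤ (δ1 * η) * X.len E :=
            mul_le_mul_of_nonneg_right (by linarith) hL.le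
        _ = δ1 * (η * X.len E) := by ring
        _ ≤ δ1 * (X.len E - X.dep B) := mul_le_mul_of_nonneg_left hηL hδ1.le
    linarith
  obtain ⟨B', hB'tt, hB'h, hB'n⟩ := h1 F hMx
  obtain ⟨T, hT⟩ := hX.lift_ex E B F hF B' hB'tt
  have hTtt := hX.lift_tt _ _ _ _ _ hT hB'tt
  have hTh := hX.lift_hor _ _ _ _ _ hT
  have hTn := hX.lift_nar _ _ _ _ _ hT
  rw [hlen] at hB'h hB'n
  have h3 : θ' * X.len E ≤ δ0 / 2 * X.len E := mul_le_mul_of_nonneg_right hθa hL.le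
  have h4 : 0 ≤ δ0 * X.dep B := mul_nonneg hδ0.le hρ0
  have h5 := hN T hTtt (by
    rw [hTh]
    linarith)
  rw [hTn] at h5
  linarith

/-- **leaf L-252-S4A-X2.  EXIT 1.**   `δ := min` of the three `δ`'s of `k4a_path`, `k4a_profile_eps θ`, `k4a_excl_depth_eps θ`; `k4a_mx_mono`. -/
theorem k4a_stage (hX : X.Hub) (hB : X.Bad) {c : ℝ} (hc : c ∉ X.Lam) {n : ℕ} {r : ℕ → ℝ} (hr : K4aGrid n r) {θ : ℝ} (hθ : 0 < θ) (hθ1 : X.dst + θ < 1) :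
    ∃ δ : ℝ, 0 < δ ∧ δ ≤ θ ∧ ∀ E : X.Pb, X.Mx δ E →
      (∃ p : K4aPath X, p.n = n ∧ p.E 0 = E ∧ p.Fit r c θ) ∧
      (∀ x : ℝ, 0 ≤ x → x ≤ X.len E → |X.prof E x - X.prof E 0 - X.dst * x| ≤ θ * X.len E) ∧
      (∀ B : X.At E, X.dep B < X.len E → X.kst * X.dep B - θ * X.len E ≤ X.hor B) := by
  obtain ⟨δa, hδa, hδaθ, ha⟩ := k4a_path hX hB hc n r hr θ hθ hθ1
  obtain ⟨δb, hδb, hδb1, hb⟩ := k4a_profile_eps hX hB hθ
  obtain ⟨δc, hδc, hδc1, hc'⟩ := k4a_excl_depth_eps hX hB hθ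
  refine ⟨min δa (min δb δc), lt_min hδa (lt_min hδb hδc), (min_le_left _ _).trans hδaθ,
    fun E hE => ⟨?_, ?_, ?_⟩⟩
  · exact ha E (k4a_mx_mono hX hE (min_le_left _ _) (by linarith))
  · exact hb E (k4a_mx_mono hX hE ((min_le_right _ _).trans (min_le_left _ _)) hδb1)
  · exact hc' _ (lt_min hδa (lt_min hδb hδc)) ((min_le_right _ _).trans (min_le_right _ _)) E hE

/-- **leaf L-252-S4A-X3.  Cumulative narrowness of a path in a base problem with `NarLe`** (l.283-296).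
`T` from `k4a_path_comp`: `hor T = chor n ≤ (k + θ) cdep n = (k + θ) L ≤ (k + δ0) L` (`k4a_fit_chor`, `h.full`), so `cnar n ≤ c1 L`;  `k4a_fit_cnar`. -/
theorem k4a_path_nar (hX : X.Hub) {p : K4aPath X} {r : ℕ → ℝ} {c c1 θ δ0 : ℝ} (h : p.Fit r c θ) (hθ : θ ≤ δ0) (hN : X.NarLe δ0 c1 (p.E 0)) {g : ℕ} (hg : g ≤ p.n) :
    c * p.cdep g ≤ p.cnar g ∧ p.cnar g + c * (X.len (p.E 0) - p.cdep g) ≤ c1 * X.len (p.E 0) := by
  obtain ⟨T, hT, hTh, hTn⟩ := k4a_path_comp hX p h.ok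
  have h1 := (k4a_fit_chor hX h (le_refl p.n)).2
  rw [h.full] at h1
  have hL := hX.len_pos (p.E 0)
  have h2 := hN T hT (by
    rw [hTh]
    exact h1.trans (mul_le_mul_of_nonneg_right (by linarith) hL.le))
  rw [hTn] at h2
  obtain ⟨h3, h4⟩ := k4a_fit_cnar hX h hg
  exact ⟨h3, by linarith⟩

/-- **leaf L-252-S4A-X4.  EXIT 2: finite `ℓ`.**
`δ0` := the `δ'` of `k4a_ell_add ζ : ℓ + ζ ∈ Lam`;   `c := ℓ - ζ ∉ Lam` (`k4a_ell_sub`), `c1 := ℓ + ζ`;   `(θ', δx)` from `k4a_excl_nar`.    Given the grid and `θ`: `θ₀ := min θ δ0`, `δs` from `k4a_stage` for `θ₀`; `δ := min δs δx`;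
`E ∈ Mx δ` with `NarLe δ0 (ℓ + ζ) E` from the definition of `Lam`.    `p` from `k4a_stage` (`Fit` with `θ₀`; `k4a_fit_mono`).   Arithmetic: `nar B + (ℓ - ζ)(L - ρ) ≤ (ℓ + ζ) L` gives `nar B ≤ ℓ ρ + ζ (2 L - ρ) ≤ ℓ ρ + 2 ζ L`  (`0 ≤ ρ`); the same for `cnar g` (`k4a_path_nar`, `k4a_fit_cdep`). -/
theorem k4a_stage_fin (hX : X.Hub) (hB : X.Bad) (hL : X.Lam.Nonempty) {ζ η : ℝ} (hζ : 0 < ζ) (hη : 0 < η) (hη1 : η ≤ 1) :
    ∃ θ' : ℝ, 0 < θ' ∧ ∀ (n : ℕ) (r : ℕ → ℝ), K4aGrid n r → ∀ θ : ℝ, 0 < θ → X.dst + θ < 1 → ∃ p : K4aPath X, p.n = n ∧ p.Fit r (X.ell - ζ) θ ∧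
      (∀ x : ℝ, 0 ≤ x → x ≤ X.len (p.E 0) → |X.prof (p.E 0) x - X.prof (p.E 0) 0 - X.dst * x| ≤ θ * X.len (p.E 0)) ∧
      (∀ B : X.At (p.E 0), X.dep B < X.len (p.E 0) → X.kst * X.dep B - θ * X.len (p.E 0) ≤ X.hor B) ∧
      (∀ B : X.At (p.E 0), X.dep B ≤ (1 - η) * X.len (p.E 0) → X.hor B ≤ X.kst * X.dep B + θ' * X.len (p.E 0) →
        X.nar B ≤ X.ell * X.dep B + 2 * ζ * X.len (p.E 0)) ∧
      (∀ g, g ≤ n → (X.ell - ζ) * p.cdep g ≤ p.cnar g ∧ p.cnar g ≤ X.ell * p.cdep g + 2 * ζ * X.len (p.E 0)) := by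
  obtain ⟨δ0, hδ0, hLam⟩ := k4a_ell_add hX hL hζ
  have hc : X.ell - ζ ∉ X.Lam := k4a_ell_sub hX hB hζ
  obtain ⟨θ', δx, hθ', hδx, hδx1, hx⟩ := k4a_excl_nar hX (c1 := X.ell + ζ) hc hδ0 hη hη1
  refine ⟨θ', hθ', fun n r hr θ hθ hθ1 => ?_⟩
  have hθ0 : 0 < min θ δ0 := lt_min hθ hδ0
  have hm1 : min θ δ0 ≤ θ := min_le_left _ _
  have hm2 : min θ δ0 ≤ δ0 := min_le_right _ _
  have hθ01 : X.dst + min θ δ0 < 1 := by linarith
  obtain ⟨δs, hδs, hδsθ, hs⟩ := k4a_stage hX hB hc hr hθ0 hθ01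
  have hδ : 0 < min δs δx := lt_min hδs hδx
  have hδ1 : X.dst + min δs δx < 1 := by linarith [min_le_right δs δx]
  obtain ⟨E, hE, hN⟩ := hLam _ hδ hδ1
  have hEs : X.Mx δs E := k4a_mx_mono hX hE (min_le_left _ _) (by linarith)
  have hEx : X.Mx δx E := k4a_mx_mono hX hE (min_le_right _ _) hδx1
  obtain ⟨⟨p, hpn, hpE, hpF⟩, hprof, hdep⟩ := hs E hEs
  subst hpE
  have hL := hX.len_pos (p.E 0)
  have hmL : min θ δ0 * X.len (p.E 0) ≤ θ * X.len (p.E 0) := mul_le_mul_of_nonneg_right hm1 hL.le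
  refine ⟨p, hpn, k4a_fit_mono hX hpF hm1 hθ1, fun x hx0 hx1 => (hprof x hx0 hx1).trans hmL,
    fun B hB' => by linarith [hdep B hB'], fun B hB1 hB2 => ?_, fun g hg => ?_⟩
  · have h1 := hx (p.E 0) hEx hN B hB1 hB2
    have h2 : 0 ≤ ζ * X.dep B := mul_nonneg hζ.le (hX.dep_nonneg _ B)
    linarith
  · obtain ⟨h1, h2⟩ := k4a_path_nar hX hpF hm2 hN (hpn ▸ hg)
    have h3 : 0 ≤ ζ * p.cdep g := mul_nonneg hζ.le (k4a_fit_cdep hX hpF (hpn ▸ hg)).1.le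
    exact ⟨h1, by linarith⟩

/-- **leaf L-252-S4A-X5.  EXIT 3: existence form of EXIT 1** (`k4a_stage`, `k4a_mx_ex`). -/
theorem k4a_stage_ex (hX : X.Hub) (hB : X.Bad) {c : ℝ} (hc : c ∉ X.Lam) {n : ℕ} {r : ℕ → ℝ} (hr : K4aGrid n r) {θ : ℝ} (hθ : 0 < θ) (hθ1 : X.dst + θ < 1) :
    ∃ p : K4aPath X, p.n = n ∧ p.Fit r c θ ∧
      (∀ x : ℝ, 0 ≤ x → x ≤ X.len (p.E 0) → |X.prof (p.E 0) x - X.prof (p.E 0) 0 - X.dst * x| ≤ θ * X.len (p.E 0)) ∧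
      (∀ B : X.At (p.E 0), X.dep B < X.len (p.E 0) → X.kst * X.dep B - θ * X.len (p.E 0) ≤ X.hor B) := by
  obtain ⟨δ, hδ, hδθ, h⟩ := k4a_stage hX hB hc hr hθ hθ1
  obtain ⟨E, hE⟩ := k4a_mx_ex hX hB hδ (by linarith)
  obtain ⟨⟨p, hpn, hpE, hpF⟩, hprof, hdep⟩ := h E hE
  subst hpE
  exact ⟨p, hpn, hpF, hprof, hdep⟩

end Claimed.Agent.R252
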