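import Claimed.Agent.R252.S4A.Profile

/-!
# ROW 252, unit S4A (architect helper23), file 4: NARROWNESS CLASS `Lam`, ONE NODE OF A PATH, P4.3 (2)-(4), one step.      CONTRACT file: every `sorry` is a leaf `L-252-S4A-N*`.   PAPER-FREE.

04-critical-paths.tex l.119-135 (`ω`, `ℓ`), l.203-232 (one node).
RULES: prove IN PLACE, statements frozen (write helper23 if one looks false or awkward), helper lemmas directly above, prefix `k4a_<leaf>_`.  All statements of the earlier files of the unit may be cited even while they are `sorry`.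
-/

set_option autoImplicit false

namespace Claimed.Agent.R252

universe u v

variable {X : K4aFr.{u, v}}

/-! ## 1. The class `Lam`      (leaf L-252-S4A-N1: this section) -/

/-- (`push_neg` on the definitions of `Lam`, `NarLe`) -/
theorem k4a_notLam {c : ℝ} (hc : c ∉ X.Lam) {δ' : ℝ} (hδ' : 0 < δ') : ∃ δ1 : ℝ, 0 < δ1 ∧ X.dst + δ1 < 1 ∧ ∀ E : X.Pb, X.Mx δ1 E →
    ∃ A : X.At E, X.TT A ∧ X.hor A ≤ (X.kst + δ') * X.len E ∧ c * X.len E < X.nar A := by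
  by_contra hcon
  apply hc
  refine ⟨δ', hδ', fun δ hδ hδ1 => ?_⟩
  by_contra hcon2
  apply hcon
  refine ⟨δ, hδ, hδ1, fun E hE => ?_⟩
  by_contra hcon3
  apply hcon2
  refine ⟨E, hE, fun A hA hhor => ?_⟩
  by_contra hcon4
  exact hcon3 ⟨A, hA, hhor, not_le.1 hcon4⟩

theorem k4a_Lam_up (hX : X.Hub) {c c' : ℝ} (hc : c ∈ X.Lam) (h : c ≤ c') : c' ∈ X.Lam := by
  obtain ⟨δ', hδ', hL⟩ := hc
  refine ⟨δ', hδ', fun δ hδ hδ1 => ?_⟩
  obtain ⟨E, hE, hN⟩ := hL δ hδ hδ1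
  exact ⟨E, hE, fun A hA hhor => (hN A hA hhor).trans (mul_le_mul_of_nonneg_right h (hX.len_pos E).le)⟩

/-- a nearly optimal true terminal system exists: `δ0` from `k4a_kd_near (δ'/2)`; `H E ≤ kd L ≤ (k + δ'/2) L` (`k4a_mx_H_le`), `k4a_H_near` with `τ = δ' L / 2`. -/
theorem k4a_near_opt (hX : X.Hub) (hB : X.Bad) {δ' : ℝ} (hδ' : 0 < δ') : ∃ δ : ℝ, 0 < δ ∧ X.dst + δ < 1 ∧ ∀ E : X.Pb, X.Mx δ E →
    ∃ A : X.At E, X.TT A ∧ X.hor A ≤ (X.kst + δ') * X.len E := by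
  obtain ⟨δ0, hδ0, hδ01, hδ02⟩ := k4a_kd_near hX hB (ε := δ' / 2) (by positivity)
  refine ⟨δ0, hδ0, hδ01, fun E hE => ?_⟩
  have hL := hX.len_pos E
  have h1 := k4a_mx_H_le hX hE
  have h2 := (hδ02 δ0 hδ0 le_rfl).2
  have h3 : X.kd (X.dst + δ0) * X.len E ≤ (X.kst + δ' / 2) * X.len E := mul_le_mul_of_nonneg_right h2 hL.le
  obtain ⟨A, hA, hhor⟩ := k4a_H_near hX E (τ := δ' * X.len E / 2) (by positivity)
  refine ⟨A, hA, ?_⟩
  nlinarith [h1, h3, hhor]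

/-- (`k4a_near_opt`, `nar_nonneg`) -/
theorem k4a_neg_notLam (hX : X.Hub) (hB : X.Bad) {c : ℝ} (hc : c < 0) : c ∉ X.Lam := by
  rintro ⟨δ', hδ', hL⟩
  obtain ⟨δ, hδ, hδ1, hopt⟩ := k4a_near_opt hX hB hδ'
  obtain ⟨E, hE, hN⟩ := hL δ hδ hδ1
  obtain ⟨A, hA, hhor⟩ := hopt E hE
  have h1 := hN A hA hhor
  have h2 := hX.nar_nonneg E A
  have h3 : c * X.len E < 0 := mul_neg_of_neg_of_pos hc (hX.len_pos E)
  linarith

theorem k4a_ell_nonneg (hX : X.Hub) (hB : X.Bad) (hL : X.Lam.Nonempty) : 0 ≤ X.ell := by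
  refine le_csInf hL fun c hc => ?_
  by_contra hcon
  exact k4a_neg_notLam hX hB (not_le.1 hcon) hc

theorem k4a_ell_add (hX : X.Hub) (hL : X.Lam.Nonempty) {ζ : ℝ} (hζ : 0 < ζ) : X.ell + ζ ∈ X.Lam := by
  obtain ⟨c, hc, hlt⟩ := exists_lt_of_csInf_lt hL (show sInf X.Lam < X.ell + ζ by
    show X.ell < X.ell + ζ
    linarith)
  exact k4a_Lam_up hX hc hlt.le

theorem k4a_ell_sub (hX : X.Hub) (hB : X.Bad) {ζ : ℝ} (hζ : 0 < ζ) : X.ell - ζ ∉ X.Lam := by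
  intro hmem
  have hbdd : BddBelow X.Lam := ⟨0, fun c hc => by
    by_contra hcon
    exact k4a_neg_notLam hX hB (not_le.1 hcon) hc⟩
  have h1 : X.ell ≤ X.ell - ζ := csInf_le hbdd hmem
  linarith

/-! ## 2. The three explicit estimates of a node      (leaf L-252-S4A-N2: this section) -/

/-- **the actual depth** (l.205-211).  `r₁` := minimiser of `f x - (d_* + ε') x` on `[0, ρ L]` (`k4a_prof_min`).   Comparison with `x ∈ [0, r₁]` gives the cap.   Comparison with `x = ρ L` and the two profile bounds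
`f r₁ ≥ f 0 + d_* r₁ - ε L`, `f (ρ L) ≤ f 0 + d_* ρ L + ε L` give `ε' (ρ L - r₁) ≤ 2 ε L`. -/
theorem k4a_node_depth (hX : X.Hub) {E : X.Pb} {ε ε' ρ : ℝ}
    (hprof : ∀ x : ℝ, 0 ≤ x → x ≤ X.len E → |X.prof E x - X.prof E 0 - X.dst * x| ≤ ε * X.len E) (hε' : 0 < ε') (hρ0 : 0 < ρ) (hρ1 : ρ ≤ 1) :
    ∃ r₁ : ℝ, 0 ≤ r₁ ∧ r₁ ≤ ρ * X.len E ∧ ε' * (ρ * X.len E - r₁) ≤ 2 * ε * X.len E ∧
      ∀ x : ℝ, 0 ≤ x → x ≤ r₁ → X.prof E r₁ - X.prof E x ≤ (X.dst + ε') * (r₁ - x) := by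
  have hL := hX.len_pos E
  have hρL0 : 0 ≤ ρ * X.len E := by positivity
  have hρL : ρ * X.len E ≤ X.len E := by nlinarith
  obtain ⟨r₁, h0, h1, hmin⟩ := k4a_prof_min hX E (X.dst + ε') le_rfl hρL0 hρL
  refine ⟨r₁, h0, h1, ?_, fun x hx0 hx1 => ?_⟩
  · have a := hmin (ρ * X.len E) hρL0 le_rfl
    have b1 := abs_le.1 (hprof r₁ h0 (h1.trans hρL))
    have b2 := abs_le.1 (hprof (ρ * X.len E) hρL0 hρL)
    nlinarith [b1.1, b2.2]
  · have a := hmin x hx0 (hx1.trans h1)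
    nlinarith

/-- **the coarsened problem** (l.213-221).  `co_len`, `co_prof`;  `k4a_comp_co`: `(k - δ) L ≤ H E ≤ H G + kd (L - r₁)`, `kd (L - r₁) ≤ k (L - r₁) + (kd - k) L`. -/
theorem k4a_node_co (hX : X.Hub) {δ ε' r₁ : ℝ} {E G : X.Pb} (hE : X.Mx δ E) (hk : X.kst ≤ X.kd (X.dst + δ)) (h0 : 0 < r₁) (h1 : r₁ < X.len E)
    (hcap : ∀ x : ℝ, 0 ≤ x → x ≤ r₁ → X.prof E r₁ - X.prof E x ≤ (X.dst + ε') * (r₁ - x)) (hε' : X.dst + ε' < 1) (hG : X.Co E r₁ G) :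
    X.InC (X.dst + ε') G ∧ X.kst * r₁ - (δ + (X.kd (X.dst + δ) - X.kst)) * X.len E ≤ X.H G := by
  have hlen := hX.co_len E r₁ G hG
  refine ⟨⟨hε', fun r hr0 hr1 => ?_⟩, ?_⟩
  · rw [hlen] at hr1 ⊢
    rw [hX.co_prof E r₁ G hG r₁ h0.le le_rfl, hX.co_prof E r₁ G hG r hr0 hr1]
    exact hcap r hr0 hr1
  · have a := k4a_comp_co hX hE.1 hG h1
    have b := hE.2
    have c : 0 ≤ (X.kd (X.dst + δ) - X.kst) * r₁ := mul_nonneg (by linarith) h0.le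
    nlinarith

/-- **the remaining problem** (l.225-232).  `k4a_rem_inC`, `k4a_comp`. -/
theorem k4a_node_rem (hX : X.Hub) {δ : ℝ} {E F : X.Pb} {A : X.At E} (hE : X.Mx δ E) (hR : X.Rem E A F) :
    X.InC (X.dst + δ) F ∧ (X.kst - δ) * X.len E - X.hor A ≤ X.H F := by
  refine ⟨k4a_rem_inC hX hR hE.1, ?_⟩
  have a := k4a_comp hX hR
  have b := hE.2
  linarith

/-! ## 3. One node      (leaf L-252-S4A-N3) -/

/-- **ONE NODE at the target fraction `ρ`.**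
CHOICES.  `θB := θ (1 - ρ) / 2`;  `δ1` from `k4a_notLam hc θB`;  `δG := min δ1 θ`, `ε' := δG`;  `ε := ε' * min (ρ/2) θ / 2`;  `δa` from `k4a_profile_eps ε`;  `δb` from `k4a_kd_near (δG ρ / 4)`;
`δ := min (min δa δb) (min (δG ρ / 4) θB)`.     Let `E ∈ Mx δ`, `L := len E` (`Mx δa E` by `k4a_mx_mono`).
* `r₁` from `k4a_node_depth`:  `ρ L - r₁ ≤ 2 ε L / ε' = min (ρ/2) θ L`, so `ρ L / 2 ≤ r₁ ≤ ρ L < L` and `|r₁ - ρ L| ≤ θ L`.
* `G` from `co_ex`; `k4a_node_co`: `InC (d_* + δG) G`, `H G ≥ k r₁ - σ L`, `σ = δ + (kd - k) ≤ δG ρ / 2`, `σ L ≤ δG r₁`: so `Mx δG G`, hence `Mx δ1 G`, `Mx θ G`.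
* `B` from the choice of `δ1`: true terminal in `G`, `hor B ≤ (k + θB) r₁`, `c r₁ < nar B`.     `A` from `coat_ex`: `dep A = dep B = len G = r₁`, `hor A = hor B`, `nar A = nar B`.   `(k - θ) r₁ ≤ H G ≤ hor B` (`k4a_H_le_hor`).
* `F` from `rem_ex`; `k4a_node_rem`: `InC (d_* + δ) F`, `H F ≥ (k - δ) L - (k + θB) r₁ ≥ (k - θ)(L - r₁)`  since `δ L + θB r₁ ≤ 2 θB L = θ (1 - ρ) L ≤ θ (L - r₁)`;  `len F = L - r₁`. -/
theorem k4a_node (hX : X.Hub) (hB : X.Bad) {c : ℝ} (hc : c ∉ X.Lam) {ρ θ : ℝ} (hρ0 : 0 < ρ) (hρ1 : ρ < 1) (hθ : 0 < θ) (hθ1 : X.dst + θ < 1) :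
    ∃ δ : ℝ, 0 < δ ∧ δ ≤ θ ∧ ∀ E : X.Pb, X.Mx δ E → ∃ (G : X.Pb) (B : X.At G) (A : X.At E) (F : X.Pb),
      X.Co E (X.dep A) G ∧ X.TT B ∧ X.CoAt E G B A ∧ X.Rem E A F ∧ 0 < X.dep A ∧ |X.dep A - ρ * X.len E| ≤ θ * X.len E ∧
      X.hor A ≤ (X.kst + θ) * X.dep A ∧ (X.kst - θ) * X.dep A ≤ X.hor A ∧ c * X.dep A < X.nar A ∧ X.Mx θ G ∧ X.Mx θ F := by
  obtain ⟨θB, hθB⟩ : ∃ θB : ℝ, θB = θ * (1 - ρ) / 2 := ⟨_, rfl⟩
  have hθB0 : 0 < θB := by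
    rw [hθB]
    have : 0 < 1 - ρ := by linarith
    positivity
  have hθBθ : θB ≤ θ := by
    rw [hθB]
    have : 0 ≤ θ * ρ := by positivity
    linarith
  obtain ⟨δ1, hδ1, hδ1', h1⟩ := k4a_notLam hc hθB0
  obtain ⟨δG, hδG⟩ : ∃ δG : ℝ, δG = min δ1 θ := ⟨_, rfl⟩
  have hδG0 : 0 < δG := by
    rw [hδG]
    exact lt_min hδ1 hθ
  have hδG1 : δG ≤ δ1 := by
    rw [hδG]
    exact min_le_left _ _
  have hδGθ : δG ≤ θ := by
    rw [hδG]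
    exact min_le_right _ _
  obtain ⟨μ, hμ⟩ : ∃ μ : ℝ, μ = min (ρ / 2) θ := ⟨_, rfl⟩
  have hμ0 : 0 < μ := by
    rw [hμ]
    exact lt_min (by linarith) hθ
  have hμρ : μ ≤ ρ / 2 := by
    rw [hμ]
    exact min_le_left _ _
  have hμθ : μ ≤ θ := by
    rw [hμ]
    exact min_le_right _ _
  have hε0 : 0 < δG * μ / 2 := by positivity
  obtain ⟨δa, hδa, hδa', ha⟩ := k4a_profile_eps hX hB hε0
  have hq0 : 0 < δG * ρ / 4 := by positivity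
  obtain ⟨δb, hδb, hδb', hb⟩ := k4a_kd_near hX hB hq0
  refine ⟨min (min δa δb) (min (δG * ρ / 4) θB), lt_min (lt_min hδa hδb) (lt_min hq0 hθB0),
    ((min_le_right _ _).trans (min_le_right _ _)).trans hθBθ, ?_⟩
  obtain ⟨δ, hδ⟩ : ∃ δ : ℝ, δ = min (min δa δb) (min (δG * ρ / 4) θB) := ⟨_, rfl⟩
  rw [← hδ]
  have hδ0 : 0 < δ := by
    rw [hδ]
    exact lt_min (lt_min hδa hδb) (lt_min hq0 hθB0)
  have hδδa : δ ≤ δa := by
    rw [hδ]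
    exact (min_le_left _ _).trans (min_le_left _ _)
  have hδδb : δ ≤ δb := by
    rw [hδ]
    exact (min_le_left _ _).trans (min_le_right _ _)
  have hδq : δ ≤ δG * ρ / 4 := by
    rw [hδ]
    exact (min_le_right _ _).trans (min_le_left _ _)
  have hδθB : δ ≤ θB := by
    rw [hδ]
    exact (min_le_right _ _).trans (min_le_right _ _)
  intro E hE
  have hL := hX.len_pos E
  obtain ⟨L, hLdef⟩ : ∃ L : ℝ, L = X.len E := ⟨_, rfl⟩
  have hprof := ha E (k4a_mx_mono hX hE hδδa hδa')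
  obtain ⟨r₁, hr0, hr1, hr2, hcap⟩ := k4a_node_depth hX hprof hδG0 hρ0 hρ1.le
  rw [← hLdef] at hL hr1 hr2 ⊢
  -- `ρ L - r₁ ≤ μ L`
  have hr3 : ρ * L - r₁ ≤ μ * L := by
    have e : 2 * (δG * μ / 2) * L = δG * (μ * L) := by ring
    rw [e] at hr2
    exact le_of_mul_le_mul_left hr2 hδG0
  have hμL : μ * L ≤ ρ / 2 * L := mul_le_mul_of_nonneg_right hμρ hL.le
  have hμL' : μ * L ≤ θ * L := mul_le_mul_of_nonneg_right hμθ hL.le
  have hρL : 0 < ρ * L := by positivity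
  have hr4 : ρ * L / 2 ≤ r₁ := by linarith
  have hr5 : 0 < r₁ := by linarith
  have hr6 : r₁ < L := by
    have : ρ * L < 1 * L := mul_lt_mul_of_pos_right hρ1 hL
    linarith
  obtain ⟨G, hG⟩ := hX.co_ex E r₁ _ hE.1 hr5 (by rw [← hLdef]; exact hr6)
  obtain ⟨hk1, hk2⟩ := hb δ hδ0 hδδb
  obtain ⟨hGC, hGH⟩ := k4a_node_co hX hE hk1 hr5 (by rw [← hLdef]; exact hr6) hcap (by linarith) hG
  have hlenG := hX.co_len E r₁ G hG
  rw [← hLdef] at hGH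
  have hMxG : X.Mx δG G := by
    refine ⟨hGC, ?_⟩
    rw [hlenG]
    have s1 : (δ + (X.kd (X.dst + δ) - X.kst)) * L ≤ (δG * ρ / 2) * L := mul_le_mul_of_nonneg_right (by linarith) hL.le
    have s2 : (δG * ρ / 2) * L ≤ δG * r₁ := by
      have := mul_le_mul_of_nonneg_left hr4 hδG0.le
      linarith
    linarith
  have hMxG1 : X.Mx δ1 G := k4a_mx_mono hX hMxG hδG1 hδ1'
  have hMxGθ : X.Mx θ G := k4a_mx_mono hX hMxG hδGθ hθ1
  obtain ⟨B, hBT, hBh, hBn⟩ := h1 G hMxG1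
  rw [hlenG] at hBh hBn
  obtain ⟨A, hA⟩ := hX.coat_ex E r₁ G hG B hBT
  have hdep : X.dep A = r₁ := by rw [hX.coat_dep E G B A hA, hBT.2, hlenG]
  have hhor : X.hor A = X.hor B := hX.coat_hor E G B A hA
  have hnar : X.nar A = X.nar B := hX.coat_nar E G B A hA
  obtain ⟨F, hF⟩ := hX.rem_ex E A _ hE.1 (by rw [hdep, ← hLdef]; exact hr6)
  obtain ⟨hFC, hFH⟩ := k4a_node_rem hX hE hF
  have hlenF := hX.rem_len E A F hF
  rw [hdep, ← hLdef] at hlenF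
  rw [← hLdef, hhor] at hFH
  have hlow : (X.kst - θ) * r₁ ≤ X.hor B := by
    have a := hMxGθ.2
    rw [hlenG] at a
    exact a.trans (k4a_H_le_hor hX hBT)
  refine ⟨G, B, A, F, by rw [hdep]; exact hG, hBT, hA, hF, by rw [hdep]; exact hr5, ?_, ?_, ?_, ?_, hMxGθ, ?_⟩
  · rw [hdep, abs_le]
    constructor <;> linarith
  · rw [hdep, hhor]
    have : (X.kst + θB) * r₁ ≤ (X.kst + θ) * r₁ := mul_le_mul_of_nonneg_right (by linarith) hr5.le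
    linarith
  · rw [hdep, hhor]
    exact hlow
  · rw [hdep, hnar]
    exact hBn
  · refine ⟨k4a_inC_mono hFC (by linarith [hδθB.trans hθBθ]) hθ1, ?_⟩
    rw [hlenF]
    have t1 : δ * L ≤ θB * L := mul_le_mul_of_nonneg_right hδθB hL.le
    have t2 : θB * r₁ ≤ θB * L := mul_le_mul_of_nonneg_left hr6.le hθB0.le
    have t3 : 2 * (θB * L) = θ * (L - ρ * L) := by
      rw [hθB]
      ring
    have t4 : θ * (L - ρ * L) ≤ θ * (L - r₁) := mul_le_mul_of_nonneg_left (by linarith) hθ.le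
    linarith

end Claimed.Agent.R252
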