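import Claimed.Agent.R252.S4A.Node

/-!
# ROW 252, unit S4A (architect helper23), file 5: PATHS ON FINITE GRIDS, P4.3 (2)-(4).      CONTRACT file: every `sorry` is a leaf `L-252-S4A-Q*`.   PAPER-FREE.

04-critical-paths.tex l.234-300.
RULES: prove IN PLACE, statements frozen (write helper23 if one looks false or awkward), helper lemmas directly above, prefix `k4a_<leaf>_`.  All statements of the earlier files of the unit may be cited even while they are `sorry`.
-/

set_option autoImplicit false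

namespace Claimed.Agent.R252

universe u v

variable {X : K4aFr.{u, v}}

/-! ## 1. Grids      (leaf L-252-S4A-Q1: sections 1 and 2) -/

/-- (induction on `g' - g`, or `Nat.le_induction`) -/
theorem k4a_grid_le {n : ℕ} {r : ℕ → ℝ} (h : K4aGrid n r) {g g' : ℕ} (hg : g ≤ g') (hg' : g' ≤ n) : r g ≤ r g' := by
  obtain ⟨k, rfl⟩ := Nat.exists_eq_add_of_le hg
  induction k with
  | zero => exact le_rfl
  | succ k ih => exact (ih (by omega) (by omega)).trans (h.mono (g + k) (by omega)).le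

theorem k4a_grid_pos {n : ℕ} {r : ℕ → ℝ} (h : K4aGrid n r) {g : ℕ} (hg : g ≤ n) : 0 < r g ∧ r g ≤ 1 := by
  refine ⟨lt_of_lt_of_le h.pos (k4a_grid_le h (Nat.zero_le g) hg), ?_⟩
  have := k4a_grid_le h hg le_rfl
  rwa [h.last] at this

theorem k4a_grid_lt_one {n : ℕ} {r : ℕ → ℝ} (h : K4aGrid (n + 1) r) : r 0 < 1 := by
  have h1 := h.mono 0 (Nat.succ_pos n)
  have h2 := (k4a_grid_pos h (g := 0 + 1) (by omega)).2
  exact lt_of_lt_of_le h1 h2

/-- the grid of the remaining length: "the next target fraction of the remaining length" -/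
theorem k4a_grid_tail {n : ℕ} {r : ℕ → ℝ} (h : K4aGrid (n + 1) r) : K4aGrid n fun g => (r (g + 1) - r 0) / (1 - r 0) := by
  have h1 : 0 < 1 - r 0 := by linarith [k4a_grid_lt_one h]
  refine ⟨?_, fun g hg => ?_, ?_⟩
  · exact div_pos (by linarith [h.mono 0 (Nat.succ_pos n)]) h1
  · exact div_lt_div_of_pos_right (by linarith [h.mono (g + 1) (by omega)]) h1
  · show (r (n + 1) - r 0) / (1 - r 0) = 1
    rw [h.last]
    exact div_self h1.ne'

/-! ## 2. `cons`, `tail`, `one` -/

theorem k4a_cons_cdep_zero (p : K4aPath X) (E0 : X.Pb) (A0 : X.At E0) (G0 : X.Pb) (B0 : X.At G0) : (p.cons E0 A0 G0 B0).cdep 0 = X.dep A0 := by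
  unfold K4aPath.cdep
  rw [zero_add, Finset.sum_range_one]
  rfl

/-- (`Finset.sum_range_succ'`; the summands of `cons` at `i + 1` are those of `p` at `i` by `rfl`) -/
theorem k4a_cons_cdep_succ (p : K4aPath X) (E0 : X.Pb) (A0 : X.At E0) (G0 : X.Pb) (B0 : X.At G0) (g : ℕ) :
    (p.cons E0 A0 G0 B0).cdep (g + 1) = X.dep A0 + p.cdep g := by
  unfold K4aPath.cdep
  rw [Finset.sum_range_succ', add_comm]
  rfl

/-- (cases `g = 0`, `g = g' + 1`; everything is `rfl` after the case split) -/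
theorem k4a_cons_ok (p : K4aPath X) (hp : p.Ok) (E0 : X.Pb) (A0 : X.At E0) (G0 : X.Pb) (B0 : X.At G0) (h1 : X.Co E0 (X.dep A0) G0) (h2 : X.TT B0)
    (h3 : X.CoAt E0 G0 B0 A0) (h4 : X.Rem E0 A0 (p.E 0)) : (p.cons E0 A0 G0 B0).Ok := by
  refine ⟨fun g hg => ?_, fun g hg => ?_, fun g hg => ?_, fun g hg => ?_, hp.last⟩
  · rcases g with _ | g
    · exact h1
    · exact hp.co g (Nat.lt_of_succ_lt_succ hg)
  · rcases g with _ | g
    · exact h2
    · exact hp.tt g (Nat.lt_of_succ_lt_succ hg)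
  · rcases g with _ | g
    · exact h3
    · exact hp.coat g (Nat.lt_of_succ_lt_succ hg)
  · rcases g with _ | g
    · exact h4
    · exact hp.rem g (Nat.lt_of_succ_lt_succ hg)

theorem k4a_tail_ok (p : K4aPath X) (hp : p.Ok) (hn : 0 < p.n) : p.tail.Ok := by
  obtain ⟨m, hm⟩ : ∃ m, p.n = m + 1 := ⟨p.n - 1, by omega⟩
  have htn : ∀ g, g < p.tail.n → g + 1 < p.n := by
    intro g hg
    have : p.tail.n = p.n - 1 := rfl
    omega
  refine ⟨fun g hg => hp.co (g + 1) (htn g hg), fun g hg => hp.tt (g + 1) (htn g hg),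
    fun g hg => hp.coat (g + 1) (htn g hg), fun g hg => hp.rem (g + 1) (htn g hg), ?_⟩
  have hl := hp.last
  show X.TT (p.A (p.n - 1 + 1))
  rw [hm] at hl ⊢
  exact hl

theorem k4a_tail_chor (p : K4aPath X) (g : ℕ) : p.chor (g + 1) = X.hor (p.A 0) + p.tail.chor g := by
  unfold K4aPath.chor
  rw [Finset.sum_range_succ', add_comm]
  rfl

theorem k4a_tail_cnar (p : K4aPath X) (g : ℕ) : p.cnar (g + 1) = X.nar (p.A 0) + p.tail.cnar g := by
  unfold K4aPath.cnar
  rw [Finset.sum_range_succ', add_comm]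
  rfl

/-! ## 3. Composition of a path      (leaf L-252-S4A-Q2) -/

/-- **the composite of a path is a true terminal system of the base problem; horizons and narrowness add** (l.283-287).
Induction on `m = p.n`, `p` generalised.   `m = 0`: `T := p.A 0`.   `m + 1`: `T'` for `p.tail` (`k4a_tail_ok`; `p.tail.n = m`, `p.tail.E 0 = p.E 1` by `rfl`); `hp.rem 0`; `lift_ex`, `lift_tt`, `lift_hor`, `lift_nar`; `k4a_tail_chor`, `k4a_tail_cnar`. -/
theorem k4a_path_comp (hX : X.Hub) (p : K4aPath X) (hp : p.Ok) : ∃ T : X.At (p.E 0), X.TT T ∧ X.hor T = p.chor p.n ∧ X.nar T = p.cnar p.n := by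
  obtain ⟨m, hm⟩ : ∃ m, p.n = m := ⟨_, rfl⟩
  induction m generalizing p with
  | zero =>
    have hl := hp.last
    rw [hm] at hl ⊢
    refine ⟨p.A 0, hl, ?_, ?_⟩
    · simp [K4aPath.chor]
    · simp [K4aPath.cnar]
  | succ m ih =>
    have hn : 0 < p.n := by omega
    have htn : p.tail.n = m := by
      show p.n - 1 = m
      omega
    obtain ⟨T', hT', h1, h2⟩ := ih p.tail (k4a_tail_ok p hp hn) htn
    rw [htn] at h1 h2
    have hrem := hp.rem 0 hn
    obtain ⟨A', hA'⟩ := hX.lift_ex _ _ _ hrem T' hT'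
    refine ⟨A', hX.lift_tt _ _ _ _ _ hA' hT', ?_, ?_⟩
    · rw [hX.lift_hor _ _ _ _ _ hA', hm, k4a_tail_chor]
      exact congrArg (X.hor (p.A 0) + ·) h1
    · rw [hX.lift_nar _ _ _ _ _ hA', hm, k4a_tail_cnar]
      exact congrArg (X.nar (p.A 0) + ·) h2

/-! ## 4. Consequences of `Fit`      (leaf L-252-S4A-Q3: this section) -/

theorem k4a_fit_mono (hX : X.Hub) {p : K4aPath X} {r : ℕ → ℝ} {c θ θ' : ℝ} (h : p.Fit r c θ) (hθ : θ ≤ θ') (hθ' : X.dst + θ' < 1) : p.Fit r c θ' := by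
  have hL := hX.len_pos (p.E 0)
  refine ⟨h.ok, h.full, fun g hg => ?_, h.dpos, fun g hg => ?_, fun g hg => ?_, h.nar_gt, fun g hg => ?_, fun g hg => ?_⟩
  · exact (h.depth g hg).trans (mul_le_mul_of_nonneg_right hθ hL.le)
  · exact (h.hor_le g hg).trans (mul_le_mul_of_nonneg_right (by linarith) (h.dpos g hg).le)
  · exact le_trans (mul_le_mul_of_nonneg_right (by linarith) (h.dpos g hg).le) (h.hor_ge g hg)
  · exact k4a_mx_mono hX (h.mxE g hg) hθ hθ'
  · exact k4a_mx_mono hX (h.mxG g hg) hθ hθ'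

/-- (sum of `dpos`; `cdep` is increasing and `cdep n = L`) -/
theorem k4a_fit_cdep (hX : X.Hub) {p : K4aPath X} {r : ℕ → ℝ} {c θ : ℝ} (h : p.Fit r c θ) {g : ℕ} (hg : g ≤ p.n) :
    0 < p.cdep g ∧ p.cdep g ≤ X.len (p.E 0) := by
  constructor
  · unfold K4aPath.cdep
    refine Finset.sum_pos (fun i hi => h.dpos i ?_) ⟨0, Finset.mem_range.2 (Nat.succ_pos g)⟩
    have := Finset.mem_range.1 hi
    omega
  · rw [← h.full]
    unfold K4aPath.cdep
    exact Finset.sum_le_sum_of_subset_of_nonneg (Finset.range_subset_range.2 (by omega))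
      fun i _ _ => hX.dep_nonneg _ _

/-- cumulative horizons: sum of `hor_le`, `hor_ge` -/
theorem k4a_fit_chor (hX : X.Hub) {p : K4aPath X} {r : ℕ → ℝ} {c θ : ℝ} (h : p.Fit r c θ) {g : ℕ} (hg : g ≤ p.n) :
    (X.kst - θ) * p.cdep g ≤ p.chor g ∧ p.chor g ≤ (X.kst + θ) * p.cdep g := by
  have hi : ∀ i ∈ Finset.range (g + 1), i ≤ p.n := fun i hi => by
    have := Finset.mem_range.1 hi
    omega
  unfold K4aPath.cdep K4aPath.chor
  rw [Finset.mul_sum, Finset.mul_sum]
  exact ⟨Finset.sum_le_sum fun i h' => h.hor_ge i (hi i h'), Finset.sum_le_sum fun i h' => h.hor_le i (hi i h')⟩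

/-- cumulative narrowness from below, and the part after the node `g` from below -/
theorem k4a_fit_cnar (hX : X.Hub) {p : K4aPath X} {r : ℕ → ℝ} {c θ : ℝ} (h : p.Fit r c θ) {g : ℕ} (hg : g ≤ p.n) :
    c * p.cdep g ≤ p.cnar g ∧ c * (X.len (p.E 0) - p.cdep g) ≤ p.cnar p.n - p.cnar g := by
  constructor
  · unfold K4aPath.cdep K4aPath.cnar
    rw [Finset.mul_sum]
    refine Finset.sum_le_sum fun i hi => (h.nar_gt i ?_).le
    have := Finset.mem_range.1 hi
    omega
  · rw [← h.full]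
    unfold K4aPath.cdep K4aPath.cnar
    have hle : g + 1 ≤ p.n + 1 := by omega
    rw [← Finset.sum_Ico_eq_sub _ hle, ← Finset.sum_Ico_eq_sub _ hle, Finset.mul_sum]
    refine Finset.sum_le_sum fun i hi => (h.nar_gt i ?_).le
    have := (Finset.mem_Ico.1 hi).2
    omega

/-! ## 5. Existence of paths      (leaf L-252-S4A-Q4) -/

/-- **P4.3 (2)-(4).**   Induction on `n` (all `r`, `θ`).
`n = 0`: `r 0 = 1`.   `δ1` from `k4a_notLam hc θ`; `δ := min δ1 θ`; `A` true terminal, `hor A ≤ (k + θ) L`, `c L < nar A`, `(k - θ) L ≤ H E ≤ hor A`; `p := K4aPath.one E A`; `cdep 0 = dep A = L`.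
`n + 1`: `ρ := r 0 ∈ (0, 1)`, `s g := (r (g+1) - r 0)/(1 - r 0)` (`k4a_grid_tail`).   `δ2` from the induction hypothesis for `(s, θ/2)`;  `δ` from `k4a_node hc ρ (min (θ/2) δ2)`.   For `E ∈ Mx δ`: `G, B, A, F`; `F ∈ Mx δ2` gives `p'` with `p'.E 0 = F`;  `p := p'.cons E A G B`.
`full`: `dep A + len F = L` (`rem_len`).    `depth` at `g + 1`:  `dep A + p'.cdep g - r (g+1) L = (p'.cdep g - s g * len F) + (dep A - r 0 L)(1 - s g)`, `0 ≤ s g ≤ 1` (`k4a_grid_pos`), `len F ≤ L`.
The other fields: case split `g = 0` / `g + 1`; tolerances `θ/2 ≤ θ` as in `k4a_fit_mono`. -/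
theorem k4a_path (hX : X.Hub) (hB : X.Bad) {c : ℝ} (hc : c ∉ X.Lam) (n : ℕ) : ∀ (r : ℕ → ℝ), K4aGrid n r → ∀ θ : ℝ, 0 < θ → X.dst + θ < 1 →
    ∃ δ : ℝ, 0 < δ ∧ δ ≤ θ ∧ ∀ E : X.Pb, X.Mx δ E → ∃ p : K4aPath X, p.n = n ∧ p.E 0 = E ∧ p.Fit r c θ := by
  induction n with
  | zero =>
    intro r hr θ hθ hθ1
    obtain ⟨δ1, hδ1, hδ11, hA⟩ := k4a_notLam hc hθ
    refine ⟨min δ1 θ, lt_min hδ1 hθ, min_le_right _ _, fun E hE => ?_⟩
    obtain ⟨A, hTT, hhor, hnar⟩ := hA E (k4a_mx_mono hX hE (min_le_left _ _) hδ11)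
    have hL := hX.len_pos E
    have hdep : X.dep A = X.len E := hTT.2
    have hr0 : r 0 = 1 := hr.last
    have hcd : (K4aPath.one E A).cdep 0 = X.len E := by
      unfold K4aPath.cdep
      rw [zero_add, Finset.sum_range_one]
      exact hdep
    refine ⟨K4aPath.one E A, rfl, rfl, ⟨fun g hg => absurd hg (Nat.not_lt_zero g), fun g hg => absurd hg (Nat.not_lt_zero g),
      fun g hg => absurd hg (Nat.not_lt_zero g), fun g hg => absurd hg (Nat.not_lt_zero g), hTT⟩, hcd, fun g hg => ?_,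
      fun g _ => ?_, fun g _ => ?_, fun g _ => ?_, fun g _ => ?_, fun g _ => ?_, fun g hg => absurd hg (Nat.not_lt_zero g)⟩
    · obtain rfl : g = 0 := Nat.le_zero.1 hg
      show |(K4aPath.one E A).cdep 0 - r 0 * X.len E| ≤ θ * X.len E
      rw [hcd, hr0, one_mul, sub_self, abs_zero]
      positivity
    · show 0 < X.dep A
      rw [hdep]
      exact hL
    · show X.hor A ≤ (X.kst + θ) * X.dep A
      rw [hdep]
      exact hhor
    · show (X.kst - θ) * X.dep A ≤ X.hor A
      rw [hdep]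
      refine le_trans ?_ (hE.2.trans (k4a_H_le_hor hX hTT))
      exact mul_le_mul_of_nonneg_right (by linarith [min_le_right δ1 θ]) hL.le
    · show c * X.dep A < X.nar A
      rw [hdep]
      exact hnar
    · exact k4a_mx_mono hX hE (min_le_right _ _) hθ1
  | succ n ih =>
    intro r hr θ hθ hθ1
    have hρ0 : 0 < r 0 := hr.pos
    have hρ1 : r 0 < 1 := k4a_grid_lt_one hr
    have hs := k4a_grid_tail hr
    obtain ⟨δ2, hδ2, hδ2θ, hp'⟩ := ih _ hs (θ / 2) (by linarith) (by linarith)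
    have hδ21 : X.dst + δ2 < 1 := by linarith
    have hδ2θ' : δ2 ≤ θ := by linarith
    obtain ⟨δ, hδ, hδδ2, hnode⟩ := k4a_node hX hB hc hρ0 hρ1 hδ2 hδ21
    refine ⟨δ, hδ, hδδ2.trans hδ2θ', fun E hE => ?_⟩
    obtain ⟨G, B, A, F, h1, h2, h3, h4, hdA, hdepA, hhle, hhge, hnar, hmG, hmF⟩ := hnode E hE
    obtain ⟨p', hn', rfl, hfit⟩ := hp' F hmF
    have hfit' := k4a_fit_mono hX hfit (by linarith : θ / 2 ≤ θ) hθ1
    have hL := hX.len_pos E
    have hLF : X.len (p'.E 0) = X.len E - X.dep A := hX.rem_len _ _ _ h4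
    have hLF0 := hX.len_pos (p'.E 0)
    refine ⟨p'.cons E A G B, by show p'.n + 1 = n + 1; rw [hn'], rfl, k4a_cons_ok p' hfit.ok E A G B h1 h2 h3 h4, ?_,
      fun g hg => ?_, fun g hg => ?_, fun g hg => ?_, fun g hg => ?_, fun g hg => ?_, fun g hg => ?_, fun g hg => ?_⟩
    · show (p'.cons E A G B).cdep (p'.n + 1) = X.len E
      rw [k4a_cons_cdep_succ, hfit.full, hLF]
      ring
    · show |(p'.cons E A G B).cdep g - r g * X.len E| ≤ θ * X.len E
      rcases g with _ | g
      · rw [k4a_cons_cdep_zero]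
        exact hdepA.trans (mul_le_mul_of_nonneg_right hδ2θ' hL.le)
      · have hg' : g ≤ p'.n := Nat.le_of_succ_le_succ hg
        rw [k4a_cons_cdep_succ]
        have hd := hfit.depth g hg'
        have hsg := k4a_grid_pos hs (g := g) (by omega)
        set s := (r (g + 1) - r 0) / (1 - r 0) with hsdef
        have hsr : s * (1 - r 0) = r (g + 1) - r 0 := by
          rw [hsdef]
          field_simp [(by linarith : (1 - r 0) ≠ 0)]
        have e : X.dep A + p'.cdep g - r (g + 1) * X.len E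
            = (p'.cdep g - s * X.len (p'.E 0)) + (X.dep A - r 0 * X.len E) * (1 - s) := by
          rw [hLF]
          linear_combination (X.len E) * hsr
        rw [e]
        have hs1 : |1 - s| ≤ 1 := by
          rw [abs_le]
          constructor <;> linarith [hsg.1, hsg.2]
        have a1 : |p'.cdep g - s * X.len (p'.E 0)| ≤ θ / 2 * X.len E :=
          hd.trans (mul_le_mul_of_nonneg_left (by linarith) (by linarith))
        have a2 : |(X.dep A - r 0 * X.len E) * (1 - s)| ≤ θ / 2 * X.len E := by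
          rw [abs_mul]
          calc |X.dep A - r 0 * X.len E| * |1 - s| ≤ (δ2 * X.len E) * 1 :=
                mul_le_mul hdepA hs1 (abs_nonneg _) (by positivity)
            _ ≤ θ / 2 * X.len E := by
                rw [mul_one]
                exact mul_le_mul_of_nonneg_right hδ2θ hL.le
        calc _ ≤ |p'.cdep g - s * X.len (p'.E 0)| + |(X.dep A - r 0 * X.len E) * (1 - s)| := abs_add_le _ _
          _ ≤ θ / 2 * X.len E + θ / 2 * X.len E := add_le_add a1 a2
          _ = θ * X.len E := by ring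
    · rcases g with _ | g
      · exact hdA
      · exact hfit'.dpos g (Nat.le_of_succ_le_succ hg)
    · rcases g with _ | g
      · exact hhle.trans (mul_le_mul_of_nonneg_right (by linarith) hdA.le)
      · exact hfit'.hor_le g (Nat.le_of_succ_le_succ hg)
    · rcases g with _ | g
      · exact le_trans (mul_le_mul_of_nonneg_right (by linarith) hdA.le) hhge
      · exact hfit'.hor_ge g (Nat.le_of_succ_le_succ hg)
    · rcases g with _ | g
      · exact hnar
      · exact hfit'.nar_gt g (Nat.le_of_succ_le_succ hg)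
    · rcases g with _ | g
      · exact k4a_mx_mono hX hE (hδδ2.trans hδ2θ') hθ1
      · exact hfit'.mxE g (Nat.le_of_succ_le_succ hg)
    · rcases g with _ | g
      · exact k4a_mx_mono hX hmG hδ2θ' hθ1
      · exact hfit'.mxG g (Nat.lt_of_succ_lt_succ hg)

end Claimed.Agent.R252
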