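import Claimed.Agent.R252.S4A.Rates

/-!
# ROW 252, unit S4A (architect helper23), file 3: THE LINEAR PROFILE, P4.3 (1).      CONTRACT file: every `sorry` is a leaf `L-252-S4A-P*`.   PAPER-FREE.

04-critical-paths.tex l.150-201.   No compactness of profiles (Arzela-Ascoli) is needed: for a problem `E ∈ C(d)` and `a` with `k(d) (L - a) < H E` one has the EXACT inequality `f(x) - f(a) ≥ d_* (x - a)` on `[a, L]`.
RULES: prove IN PLACE, statements frozen (write helper23 if one looks false or awkward), helper lemmas directly above, prefix `k4a_<leaf>_`.  All statements of `Rates.lean` may be cited even while they are `sorry`.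
-/

set_option autoImplicit false

namespace Claimed.Agent.R252

universe u v

variable {X : K4aFr.{u, v}}

/-- **leaf L-252-S4A-P1** (with `k4a_prof_min`).  `|f x - f y| ≤ |x - y|` on `[0, L]` (`prof_mono`, `prof_lip`, `le_total`): `LipschitzOnWith 1`, or `Metric.continuousOn_iff` with `δ = ε`. -/
theorem k4a_prof_cont (hX : X.Hub) (E : X.Pb) : ContinuousOn (X.prof E) (Set.Icc 0 (X.len E)) := by
  have hl : LipschitzOnWith 1 (X.prof E) (Set.Icc 0 (X.len E)) := by
    refine LipschitzOnWith.of_dist_le_mul fun x hx y hy => ?_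
    rw [Real.dist_eq, Real.dist_eq, NNReal.coe_one, one_mul]
    rcases le_total x y with h | h
    · have h1 := hX.prof_mono E x y hx.1 h hy.2
      have h2 := hX.prof_lip E x y hx.1 h hy.2
      rw [abs_sub_comm, abs_of_nonneg (by linarith), abs_sub_comm, abs_of_nonneg (by linarith)]
      exact h2
    · have h1 := hX.prof_mono E y x hy.1 h hx.2
      have h2 := hX.prof_lip E y x hy.1 h hx.2
      rw [abs_of_nonneg (by linarith), abs_of_nonneg (by linarith)]
      exact h2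
  exact hl.continuousOn

/-- a minimiser of `f(x) - m x` on `[a, b]` (`IsCompact.exists_isMinOn isCompact_Icc`, `ContinuousOn.mono`) -/
theorem k4a_prof_min (hX : X.Hub) (E : X.Pb) (m : ℝ) {a b : ℝ} (ha : 0 ≤ a) (hab : a ≤ b) (hb : b ≤ X.len E) :
    ∃ r : ℝ, a ≤ r ∧ r ≤ b ∧ ∀ x : ℝ, a ≤ x → x ≤ b → X.prof E r - m * r ≤ X.prof E x - m * x := by
  have hc : ContinuousOn (fun x => X.prof E x - m * x) (Set.Icc a b) :=
    ((k4a_prof_cont hX E).mono (Set.Icc_subset_Icc ha hb)).sub (by fun_prop)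
  obtain ⟨r, hr, hmin⟩ := isCompact_Icc.exists_isMinOn (Set.nonempty_Icc.2 hab) hc
  exact ⟨r, hr.1, hr.2, fun x hx1 hx2 => hmin ⟨hx1, hx2⟩⟩

/-- **leaf L-252-S4A-P2.  A terminal slope cap `d'' < d_*` back to some `a < L` forces `H = 0`** (l.157-199).
PROOF.  `r := len G`, `f := prof G`.   (i) GLOBAL CAP: `D := 1 - (1 - d'') (r - a) / r < 1` and `X.InC D G`:  for `x ∈ [a, r]`: `f r - f x ≤ d'' (r - x) ≤ D (r - x)` since `D - d'' = (1 - d'') a / r ≥ 0`;
for `x ∈ [0, a]`: `f r - f x ≤ d'' (r - a) + (a - x) = (r - x) - (1 - d'')(r - a) ≤ D (r - x)` since `(r - x)/r ≤ 1` (`prof_lip`).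
(ii) Suppose `0 < H G` (else done by `k4a_H_nonneg`).  `(C, c)` from `hX.ext D`.  `e := min (min (H G) (c r)) ((r - a)/C) / 2`.  `B` true terminal with `hor B < H G + e/4` (`k4a_H_near`), `e < H G ≤ hor B`.
`ext` gives `A'`: `hor A' = hor B - e`, `t := dep A'`, `0 < r - t ≤ C e < r - a`, so `a < t`.   `F` from `rem_ex`, `len F = r - t`;  `X.InC d'' F`: `f_F(L_F) - f_F(s) ≤ f r - f (t + s) ≤ d'' (r - t - s)` (`rem_prof`, `hcap` at `t + s ∈ [a, r]`), `d'' < d_* < 1`.
`H F ≥ H G - (hor B - e) > 3e/4 > 0` (`k4a_comp`): contradiction with `k4a_no_bad`. -/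
theorem k4a_zero_cost (hX : X.Hub) (hB : X.Bad) {G : X.Pb} {a d'' : ℝ} (ha : 0 ≤ a) (har : a < X.len G) (hd : d'' < X.dst)
    (hcap : ∀ x : ℝ, a ≤ x → x ≤ X.len G → X.prof G (X.len G) - X.prof G x ≤ d'' * (X.len G - x)) : X.H G = 0 := by
  have hr : 0 < X.len G := hX.len_pos G
  have hd1 : d'' < 1 := hd.trans (k4a_dst_lt_one hX hB)
  obtain ⟨q, hq⟩ : ∃ q : ℝ, q = (1 - d'') * (X.len G - a) / X.len G := ⟨_, rfl⟩
  have hqr : q * X.len G = (1 - d'') * (X.len G - a) := by
    rw [hq, div_mul_cancel₀ _ hr.ne']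
  have hq0 : 0 < q := by
    rw [hq]
    exact div_pos (mul_pos (by linarith) (by linarith)) hr
  have hq1 : q ≤ 1 - d'' := by
    refine le_of_mul_le_mul_right ?_ hr
    rw [hqr]
    nlinarith
  have hInC : X.InC (1 - q) G := by
    refine ⟨by linarith, fun x hx0 hxr => ?_⟩
    rcases le_total a x with hax | hxa
    · have h1 := hcap x hax hxr
      have h2 : 0 ≤ X.len G - x := by linarith
      nlinarith
    · have h1 := hcap a le_rfl har.le
      have h2 := hX.prof_lip G x a hx0 hxa har.le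
      nlinarith
  by_contra hne
  have hH : 0 < X.H G := lt_of_le_of_ne (k4a_H_nonneg hX G) (Ne.symm hne)
  obtain ⟨C, c, hC, hc, hext⟩ := hX.ext (1 - q) (by linarith)
  obtain ⟨e, he⟩ : ∃ e : ℝ, e = min (min (X.H G) (c * X.len G)) ((X.len G - a) / C) / 2 := ⟨_, rfl⟩
  have hm0 : 0 < min (min (X.H G) (c * X.len G)) ((X.len G - a) / C) :=
    lt_min (lt_min hH (mul_pos hc hr)) (div_pos (by linarith) hC)
  have he0 : 0 < e := by rw [he]; linarith
  have he1 : e < X.H G := by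
    have : min (min (X.H G) (c * X.len G)) ((X.len G - a) / C) ≤ X.H G := (min_le_left _ _).trans (min_le_left _ _)
    rw [he]
    linarith
  have he2 : e < c * X.len G := by
    have : min (min (X.H G) (c * X.len G)) ((X.len G - a) / C) ≤ c * X.len G := (min_le_left _ _).trans (min_le_right _ _)
    rw [he]
    linarith
  have he3 : C * e < X.len G - a := by
    have h1 : min (min (X.H G) (c * X.len G)) ((X.len G - a) / C) ≤ (X.len G - a) / C := min_le_right _ _
    have h2 : e < (X.len G - a) / C := by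
      rw [he]
      linarith
    rw [lt_div_iff₀ hC] at h2
    linarith
  obtain ⟨B, hBT, hBh⟩ := k4a_H_near hX G (τ := e / 4) (by linarith)
  have hHB := k4a_H_le_hor hX hBT
  obtain ⟨A', hA1, hA2, hA3, hA4⟩ := hext G hInC B hBT e he0 (by linarith) he2
  obtain ⟨F, hF⟩ := hX.rem_ex G A' _ hInC hA3
  have hlen := hX.rem_len G A' F hF
  have hInF : X.InC d'' F := by
    refine ⟨hd1, fun s hs0 hs1 => ?_⟩
    have h1 := hX.rem_prof G A' F hF s hs0 hs1
    have h2 := hcap (X.dep A' + s) (by linarith) (by linarith)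
    rw [hlen]
    have h3 : X.len G - (X.dep A' + s) = X.len G - X.dep A' - s := by ring
    rw [h3] at h2
    rw [hlen] at h1
    exact h1.trans h2
  have hF0 := k4a_no_bad hX hd hInF
  have hcomp := k4a_comp hX hF
  rw [hF0, hA1] at hcomp
  linarith

/-- **leaf L-252-S4A-P3.  No lower secant** (l.155-157, 201).
PROOF.  Suppose `f b - f a < d_* (b - a)` for some `b ∈ (a, L]`.  Choose `d'' < d_*` with `f b - f a < d'' (b - a)` (e.g. `d'' := (d_* + (f b - f a)/(b - a)) / 2`).   `r` := minimiser of `f x - d'' x` on `[a, b]` (`k4a_prof_min`); `r ≠ a` since the value at `b` is smaller than at `a`.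
For `x ∈ [a, r]`: `f r - f x ≤ d'' (r - x)`.    Case `r = L`: `k4a_zero_cost` for `E` itself gives `H E = 0`, but `0 ≤ kd d * (L - a) < H E`.
Case `r < L`: `G` from `co_ex`, `len G = r`, `prof G = prof E` on `[0, r]`; `k4a_zero_cost` gives `H G = 0`; `k4a_comp_co`: `H E ≤ kd d * (L - r) ≤ kd d * (L - a)`: contradiction. -/
theorem k4a_secant (hX : X.Hub) (hB : X.Bad) {d a : ℝ} {E : X.Pb} (h : X.InC d E) (ha : 0 ≤ a) (hH : X.kd d * (X.len E - a) < X.H E) :
    ∀ x : ℝ, a ≤ x → x ≤ X.len E → X.dst * (x - a) ≤ X.prof E x - X.prof E a := by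
  intro b hab hbL
  by_contra hcon
  have hcon' : X.prof E b - X.prof E a < X.dst * (b - a) := not_le.1 hcon
  have hne : a ≠ b := by
    intro e
    rw [e] at hcon'
    simp at hcon'
  have hlt : a < b := lt_of_le_of_ne hab hne
  have hba : 0 < b - a := sub_pos.2 hlt
  obtain ⟨d'', hd''⟩ : ∃ d'' : ℝ, d'' = (X.dst + (X.prof E b - X.prof E a) / (b - a)) / 2 := ⟨_, rfl⟩
  have hq : (X.prof E b - X.prof E a) / (b - a) < X.dst := by
    rw [div_lt_iff₀ hba]
    exact hcon'
  have hd1 : d'' < X.dst := by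
    rw [hd'']
    linarith
  have hd2 : X.prof E b - X.prof E a < d'' * (b - a) := by
    have h1 : (X.prof E b - X.prof E a) / (b - a) < d'' := by
      rw [hd'']
      linarith
    exact (div_lt_iff₀ hba).1 h1
  obtain ⟨r, hr1, hr2, hr3⟩ := k4a_prof_min hX E d'' ha hab hbL
  have hra : a < r := by
    refine lt_of_le_of_ne hr1 fun e => ?_
    have h1 := hr3 b hab le_rfl
    rw [← e] at h1
    nlinarith [h1, hd2]
  have hcap : ∀ x : ℝ, a ≤ x → x ≤ r → X.prof E r - X.prof E x ≤ d'' * (r - x) := by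
    intro x hx1 hx2
    have h1 := hr3 x hx1 (hx2.trans hr2)
    nlinarith [h1]
  have hkd := k4a_kd_nonneg hX d
  have hrL : r ≤ X.len E := hr2.trans hbL
  rcases hrL.eq_or_lt with hrL' | hrL'
  · rw [hrL'] at hcap hra
    have h0 := k4a_zero_cost hX hB ha hra hd1 hcap
    have h1 : 0 ≤ X.kd d * (X.len E - a) := mul_nonneg hkd (by linarith)
    linarith
  · obtain ⟨G, hG⟩ := hX.co_ex E r d h (by linarith) hrL'
    have hlen := hX.co_len E r G hG
    have hprof := hX.co_prof E r G hG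
    have h0 : X.H G = 0 := by
      refine k4a_zero_cost hX hB ha (by rw [hlen]; exact hra) hd1 ?_
      intro x hx1 hx2
      rw [hlen] at hx2 ⊢
      rw [hprof r (by linarith) le_rfl, hprof x (by linarith) hx2]
      exact hcap x hx1 hx2
    have h1 := k4a_comp_co hX h hG hrL'
    have h2 : X.kd d * (X.len E - r) ≤ X.kd d * (X.len E - a) := mul_le_mul_of_nonneg_left (by linarith) hkd
    linarith

/-- **leaf L-252-S4A-P4 (with `k4a_profile_eps`).  (4.4) with explicit error.**   `L := len E`, `a₁ := s L`, `f := prof E`.   For every `a ∈ [a₁, L]`: `kd (L - a) ≤ kd (1 - s) L < (k - δ) L ≤ H E`, so `k4a_secant` applies at `a`.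
LOWER: `x ≥ a₁`: `f x - f 0 ≥ f x - f a₁ ≥ d_* (x - a₁) ≥ d_* x - a₁`  (`0 ≤ d_* ≤ 1`);  `x < a₁`: `f x - f 0 - d_* x ≥ - d_* x ≥ - a₁`.
UPPER: `x ≥ a₁`: secant at `a := x` evaluated at `L`: `d_* (L - x) ≤ f L - f x`; cap at `0`: `f L - f 0 ≤ (d_* + δ) L`; so `f x - f 0 ≤ d_* x + δ L`;   `x < a₁`: `f x - f 0 ≤ x ≤ a₁` (`prof_lip`). -/
theorem k4a_profile (hX : X.Hub) (hB : X.Bad) {δ s : ℝ} {E : X.Pb} (h : X.Mx δ E) (hδ : 0 ≤ δ) (hs0 : 0 ≤ s) (hs1 : s < 1)
    (hs : X.kd (X.dst + δ) * (1 - s) < X.kst - δ) :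
    ∀ x : ℝ, 0 ≤ x → x ≤ X.len E → |X.prof E x - X.prof E 0 - X.dst * x| ≤ (s + δ) * X.len E := by
  obtain ⟨hC, hHE⟩ := h
  have hL := hX.len_pos E
  have hkd := k4a_kd_nonneg hX (X.dst + δ)
  have hd0 := k4a_dst_nonneg hX
  have hd1 := k4a_dst_lt_one hX hB
  have hsL0 : 0 ≤ s * X.len E := mul_nonneg hs0 hL.le
  have hsL1 : s * X.len E ≤ X.len E := by nlinarith
  have hδL : 0 ≤ δ * X.len E := mul_nonneg hδ hL.le
  have hsec : ∀ a : ℝ, s * X.len E ≤ a → a ≤ X.len E → ∀ x : ℝ, a ≤ x → x ≤ X.len E →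
      X.dst * (x - a) ≤ X.prof E x - X.prof E a := by
    intro a ha1 ha2
    refine k4a_secant hX hB hC (hsL0.trans ha1) ?_
    have h1 : X.kd (X.dst + δ) * (X.len E - a) ≤ X.kd (X.dst + δ) * ((1 - s) * X.len E) :=
      mul_le_mul_of_nonneg_left (by linarith) hkd
    have h2 : X.kd (X.dst + δ) * (1 - s) * X.len E < (X.kst - δ) * X.len E := mul_lt_mul_of_pos_right hs hL
    nlinarith [h1, h2, hHE]
  intro x hx0 hxL
  rw [abs_le]
  rcases le_or_gt (s * X.len E) x with hx | hx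
  · constructor
    · have h1 := hsec (s * X.len E) le_rfl hsL1 x hx hxL
      have h2 := hX.prof_mono E 0 (s * X.len E) le_rfl hsL0 hsL1
      have h3 : X.dst * (s * X.len E) ≤ 1 * (s * X.len E) := mul_le_mul_of_nonneg_right hd1.le hsL0
      nlinarith [h1, h2, h3]
    · have h1 := hsec x hx hxL (X.len E) hxL le_rfl
      have h2 := hC.2 0 le_rfl hL.le
      nlinarith [h1, h2]
  · constructor
    · have h1 := hX.prof_mono E 0 x le_rfl hx0 hxL
      have h2 : X.dst * x ≤ 1 * x := mul_le_mul_of_nonneg_right hd1.le hx0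
      nlinarith [h1, h2]
    · have h1 := hX.prof_lip E 0 x le_rfl hx0 hxL
      have h2 : 0 ≤ X.dst * x := mul_nonneg hd0 hx0
      nlinarith [h1, h2]

/-- **P4.3 (1).**   `s := min (ε/2) (1/2)`, `ε' := k s / 3`, `δ0` from `k4a_kd_near ε'`, `δ := min δ0 (min (k s / 3) (ε/2))`:  `kd (1 - s) ≤ (k + ε')(1 - s) ≤ k - k s + ε' < k - δ`. -/
theorem k4a_profile_eps (hX : X.Hub) (hB : X.Bad) {ε : ℝ} (hε : 0 < ε) : ∃ δ : ℝ, 0 < δ ∧ X.dst + δ < 1 ∧ ∀ E : X.Pb, X.Mx δ E →
    ∀ x : ℝ, 0 ≤ x → x ≤ X.len E → |X.prof E x - X.prof E 0 - X.dst * x| ≤ ε * X.len E := by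
  have hk := k4a_kst_pos hX hB
  obtain ⟨s, hsdef⟩ : ∃ s : ℝ, s = min (ε / 2) (1 / 2) := ⟨_, rfl⟩
  have hs0 : 0 < s := by
    rw [hsdef]
    exact lt_min (by positivity) (by norm_num)
  have hs1 : s ≤ 1 / 2 := by
    rw [hsdef]
    exact min_le_right _ _
  have hs2 : s ≤ ε / 2 := by
    rw [hsdef]
    exact min_le_left _ _
  have hks : 0 < X.kst * s := mul_pos hk hs0
  obtain ⟨δ0, hδ0, hδ01, hδ02⟩ := k4a_kd_near hX hB (ε := X.kst * s / 3) (by positivity)
  obtain ⟨δ, hδdef⟩ : ∃ δ : ℝ, δ = min δ0 (min (X.kst * s / 3) (ε / 2)) := ⟨_, rfl⟩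
  have hδpos : 0 < δ := by
    rw [hδdef]
    exact lt_min hδ0 (lt_min (by positivity) (by positivity))
  have hδ1 : δ ≤ δ0 := by
    rw [hδdef]
    exact min_le_left _ _
  have hδ2 : δ ≤ X.kst * s / 3 := by
    rw [hδdef]
    exact (min_le_right _ _).trans (min_le_left _ _)
  have hδ3 : δ ≤ ε / 2 := by
    rw [hδdef]
    exact (min_le_right _ _).trans (min_le_right _ _)
  refine ⟨δ, hδpos, by linarith, fun E hE x hx0 hxL => ?_⟩
  have hkd := (hδ02 δ hδpos hδ1).2
  have hs : X.kd (X.dst + δ) * (1 - s) < X.kst - δ := by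
    have h1 : X.kd (X.dst + δ) * (1 - s) ≤ (X.kst + X.kst * s / 3) * (1 - s) :=
      mul_le_mul_of_nonneg_right hkd (by linarith)
    nlinarith [h1, mul_pos hks hs0]
  refine (k4a_profile hX hB hE hδpos.le hs0.le (by linarith) hs x hx0 hxL).trans ?_
  exact mul_le_mul_of_nonneg_right (by linarith) (hX.len_pos E).le

end Claimed.Agent.R252
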