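import Claimed.Agent.R252.S4A.Frame

/-!
# ROW 252, unit S4A (architect helper23), file 2: HORIZON, COMPOSITION, THE RATES `d_*`, `k(d)`, `k`.      CONTRACT file: every `sorry` is a leaf `L-252-S4A-R*`.   PAPER-FREE: real numbers, `sInf`/`sSup`, the fields of `X.Hub`.

04-critical-paths.tex l.10-100:  (4.1), L4.1 (composition), L4.2 (`0 < k ≤ 1`).
RULES: prove IN PLACE, statements frozen (write helper23 if one looks false or awkward), helper lemmas directly above, prefix `k4a_<leaf>_`.  Earlier statements of the unit may be cited even while they are `sorry`.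
Tools: `Real.sInf_nonneg`, `csInf_le`, `le_csInf`, `exists_lt_of_csInf_lt`, `le_csSup`, `Real.sSup_le`, `Real.sSup_nonneg`, `le_of_forall_pos_le_add`.
-/

set_option autoImplicit false

namespace Claimed.Agent.R252

universe u v

variable {X : K4aFr.{u, v}}

/-! ## 1. The horizon      (leaf L-252-S4A-R1: the six statements of this section) -/

theorem k4a_R1_bdd (hX : X.Hub) (E : X.Pb) : BddBelow {h : ℝ | ∃ A : X.At E, X.TT A ∧ X.hor A = h} :=
  ⟨0, by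
    rintro h ⟨A, -, rfl⟩
    exact hX.hor_nonneg E A⟩

theorem k4a_R1_ne (hX : X.Hub) (E : X.Pb) : {h : ℝ | ∃ A : X.At E, X.TT A ∧ X.hor A = h}.Nonempty := by
  obtain ⟨A, hA, -⟩ := hX.hbound E 1 one_pos
  exact ⟨_, A, hA, rfl⟩

theorem k4a_H_nonneg (hX : X.Hub) (E : X.Pb) : 0 ≤ X.H E := by
  exact Real.sInf_nonneg (by
    rintro h ⟨A, -, rfl⟩
    exact hX.hor_nonneg E A)

theorem k4a_H_le_hor (hX : X.Hub) {E : X.Pb} {A : X.At E} (hA : X.TT A) : X.H E ≤ X.hor A := by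
  exact csInf_le (k4a_R1_bdd hX E) ⟨A, hA, rfl⟩

/-- the set is nonempty by `hX.hbound` -/
theorem k4a_H_near (hX : X.Hub) (E : X.Pb) {τ : ℝ} (hτ : 0 < τ) : ∃ A : X.At E, X.TT A ∧ X.hor A < X.H E + τ := by
  obtain ⟨h, ⟨A, hA, rfl⟩, hlt⟩ := exists_lt_of_csInf_lt (k4a_R1_ne hX E) (lt_add_of_pos_right (X.H E) hτ)
  exact ⟨A, hA, hlt⟩

/-- P2.16 -/
theorem k4a_H_le_len (hX : X.Hub) (E : X.Pb) : X.H E ≤ X.len E := by
  refine le_of_forall_pos_le_add fun τ hτ => ?_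
  obtain ⟨A, hA, hle⟩ := hX.hbound E τ hτ
  exact (k4a_H_le_hor hX hA).trans hle

/-- a lower bound for all true terminal systems is a lower bound for `H` -/
theorem k4a_le_H (hX : X.Hub) {E : X.Pb} {c : ℝ} (h : ∀ A : X.At E, X.TT A → c ≤ X.hor A) : c ≤ X.H E := by
  exact le_csInf (k4a_R1_ne hX E) (by
    rintro x ⟨A, hA, rfl⟩
    exact h A hA)

theorem k4a_inC_mono {d d' : ℝ} {E : X.Pb} (h : X.InC d E) (hd : d ≤ d') (hd' : d' < 1) : X.InC d' E := by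
  exact ⟨hd', fun r hr hr' => (h.2 r hr hr').trans (mul_le_mul_of_nonneg_right hd (sub_nonneg.2 hr'))⟩

/-! ## 2. Composition, L4.1      (leaf L-252-S4A-R2: the five statements of this section) -/

/-- `C(d)` is preserved by normalisation: `rem_prof`, `rem_len`, the cap of `E` at `dep A + s`. -/
theorem k4a_rem_inC (hX : X.Hub) {d : ℝ} {E F : X.Pb} {A : X.At E} (hR : X.Rem E A F) (h : X.InC d E) : X.InC d F := by
  have hl := hX.rem_len E A F hR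
  refine ⟨h.1, fun s hs hs' => ?_⟩
  have h1 := hX.rem_prof E A F hR s hs hs'
  have h2 := h.2 (X.dep A + s) (add_nonneg (hX.dep_nonneg E A) hs) (by linarith)
  have h3 : X.len E - (X.dep A + s) = X.len F - s := by
    rw [hl]
    ring
  rw [h3] at h2
  exact h1.trans h2

/-- **(4.2)**.  For every true terminal `B` of `F` the lift is true terminal in `E` with horizon `hor A + hor B`: `H E - hor A ≤ hor B`; `k4a_le_H`. -/
theorem k4a_comp (hX : X.Hub) {E F : X.Pb} {A : X.At E} (hR : X.Rem E A F) : X.H E ≤ X.hor A + X.H F := by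
  have h1 : X.H E - X.hor A ≤ X.H F := k4a_le_H hX fun B hB => by
    obtain ⟨A', hA'⟩ := hX.lift_ex E A F hR B hB
    have h2 := k4a_H_le_hor hX (hX.lift_tt _ _ _ _ _ hA' hB)
    rw [hX.lift_hor _ _ _ _ _ hA'] at h2
    linarith
  linarith

theorem k4a_R2_bdd (hX : X.Hub) (d : ℝ) : BddAbove {x : ℝ | ∃ E : X.Pb, X.InC d E ∧ x = X.H E / X.len E} :=
  ⟨1, by
    rintro x ⟨E, -, rfl⟩
    exact (div_le_one (hX.len_pos E)).2 (k4a_H_le_len hX E)⟩

/-- `H E / len E` is in the set defining `kd d`, which is bounded above by `1` (`k4a_H_le_len`). -/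
theorem k4a_H_le_kd (hX : X.Hub) {d : ℝ} {E : X.Pb} (h : X.InC d E) : X.H E ≤ X.kd d * X.len E := by
  have h1 : X.H E / X.len E ≤ X.kd d := le_csSup (k4a_R2_bdd hX d) ⟨E, h, rfl⟩
  rwa [div_le_iff₀ (hX.len_pos E)] at h1

/-- **every known atlas of depth `< L` costs at least `H E - k(d) (L - dep)`** (`rem_ex`, `k4a_comp`, `k4a_rem_inC`, `k4a_H_le_kd`, `rem_len`). -/
theorem k4a_atlas_low (hX : X.Hub) {d : ℝ} {E : X.Pb} (h : X.InC d E) (A : X.At E) (hA : X.dep A < X.len E) :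
    X.H E ≤ X.hor A + X.kd d * (X.len E - X.dep A) := by
  obtain ⟨F, hF⟩ := hX.rem_ex E A d h hA
  have h1 := k4a_comp hX hF
  have h2 := k4a_H_le_kd hX (k4a_rem_inC hX hF h)
  rw [hX.rem_len E A F hF] at h2
  linarith

/-- **(4.3)**.  For every true terminal `B` of `G`: `A` from `coat_ex`, `dep A = dep B = len G = r`, `hor A = hor B`; `k4a_atlas_low`; then `k4a_le_H` for `G`. -/
theorem k4a_comp_co (hX : X.Hub) {d r : ℝ} {E G : X.Pb} (h : X.InC d E) (hG : X.Co E r G) (hr : r < X.len E) :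
    X.H E ≤ X.H G + X.kd d * (X.len E - r) := by
  have h1 : X.H E - X.kd d * (X.len E - r) ≤ X.H G := k4a_le_H hX fun B hB => by
    obtain ⟨A, hA⟩ := hX.coat_ex E r G hG B hB
    have hdep : X.dep A = r := by
      rw [hX.coat_dep _ _ _ _ hA, hB.2, hX.co_len E r G hG]
    have h2 := k4a_atlas_low hX h A (by rw [hdep]; exact hr)
    rw [hdep, hX.coat_hor _ _ _ _ hA] at h2
    linarith
  linarith

/-! ## 3. The rates      (leaf L-252-S4A-R3: `k4a_kd_*`, `k4a_dst_*`, `k4a_no_bad`, `k4a_bad_near`) -/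

theorem k4a_kd_nonneg (hX : X.Hub) (d : ℝ) : 0 ≤ X.kd d := by
  exact Real.sSup_nonneg (by
    rintro x ⟨E, -, rfl⟩
    exact div_nonneg (k4a_H_nonneg hX E) (hX.len_pos E).le)

theorem k4a_kd_le_one (hX : X.Hub) (d : ℝ) : X.kd d ≤ 1 := by
  exact Real.sSup_le (by
    rintro x ⟨E, -, rfl⟩
    exact (div_le_one (hX.len_pos E)).2 (k4a_H_le_len hX E)) zero_le_one

/-- (`k4a_inC_mono`; `Real.sSup_le` handles the empty set) -/
theorem k4a_kd_mono (hX : X.Hub) {d d' : ℝ} (hd : d ≤ d') (hd' : d' < 1) : X.kd d ≤ X.kd d' := by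
  exact Real.sSup_le (by
    rintro x ⟨E, hE, rfl⟩
    exact le_csSup (k4a_R2_bdd hX d') ⟨E, k4a_inC_mono hE hd hd', rfl⟩) (k4a_kd_nonneg hX d')

/-- `InC d E` with `d < 0` contradicts `prof_mono` at `r = 0`. -/
theorem k4a_inC_nonneg (hX : X.Hub) {d : ℝ} {E : X.Pb} (h : X.InC d E) : 0 ≤ d := by
  have h1 := h.2 0 le_rfl (hX.len_pos E).le
  have h2 := hX.prof_mono E 0 (X.len E) le_rfl (hX.len_pos E).le le_rfl
  have h3 := hX.len_pos E
  by_contra hd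
  rw [not_le] at hd
  nlinarith

theorem k4a_dst_nonneg (hX : X.Hub) : 0 ≤ X.dst := by
  exact Real.sInf_nonneg (by
    rintro d ⟨E, hE, -⟩
    exact k4a_inC_nonneg hX hE)

theorem k4a_dst_le (hX : X.Hub) {d : ℝ} {E : X.Pb} (h : X.InC d E) (hH : 0 < X.H E) : X.dst ≤ d := by
  exact csInf_le ⟨0, by
    rintro d ⟨E, hE, -⟩
    exact k4a_inC_nonneg hX hE⟩ ⟨E, h, hH⟩

theorem k4a_dst_lt_one (hX : X.Hub) (hB : X.Bad) : X.dst < 1 := by
  obtain ⟨d, E, h, hH⟩ := hB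
  exact (k4a_dst_le hX h hH).trans_lt h.1

/-- below `d_*` the horizon vanishes -/
theorem k4a_no_bad (hX : X.Hub) {d : ℝ} {E : X.Pb} (hd : d < X.dst) (h : X.InC d E) : X.H E = 0 := by
  by_contra hne
  have hpos : 0 < X.H E := lt_of_le_of_ne (k4a_H_nonneg hX E) (Ne.symm hne)
  exact absurd (k4a_dst_le hX h hpos) (not_le.2 hd)

/-- bad problems exist arbitrarily close to `d_*` -/
theorem k4a_bad_near (hX : X.Hub) (hB : X.Bad) {d : ℝ} (hd : X.dst < d) (hd' : d < 1) : ∃ E : X.Pb, X.InC d E ∧ 0 < X.H E := by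
  obtain ⟨d0, E0, h0, hH0⟩ := hB
  obtain ⟨d1, ⟨E, hE, hH⟩, hlt⟩ := exists_lt_of_csInf_lt
    (s := {d : ℝ | ∃ E : X.Pb, X.InC d E ∧ 0 < X.H E}) ⟨d0, E0, h0, hH0⟩ hd
  exact ⟨E, k4a_inC_mono hE hlt.le hd', hH⟩

/-! ## 4. `0 < k ≤ 1`, L4.2; the modulus of `k(d) → k`      (leaf L-252-S4A-R4: this section) -/

/-- **one bad problem gives a remaining problem of ratio `≥ 3/(4C)`.**   `(C, c)` = the constants of `hX.ext d0`.
PROOF.  Choose `e := min (H E) (c L) / 2 > 0`, a true terminal `A` with `hor A < H E + e/4` (`k4a_H_near`); `e < H E ≤ hor A`, `e < c L`.  `ext` gives `A'`, `hor A' = hor A - e`, `0 < L - dep A' ≤ C e`.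
`F` from `rem_ex`: `InC d0 F`, `len F ≤ C e`, `H F ≥ H E - (hor A - e) > 3e/4` (`k4a_comp`).   `H F ≤ kd d0 * len F ≤ kd d0 * (C e)`. -/
theorem k4a_ratio_low (hX : X.Hub) {d0 C c : ℝ} (hC : 0 < C) (hc : 0 < c)
    (hext : ∀ E, X.InC d0 E → ∀ A : X.At E, X.TT A → ∀ e : ℝ, 0 < e → e < X.hor A → e < c * X.len E →
      ∃ A' : X.At E, X.hor A' = X.hor A - e ∧ 0 < X.dep A' ∧ X.dep A' < X.len E ∧ X.len E - X.dep A' ≤ C * e)
    {d : ℝ} (hd : d ≤ d0) {E : X.Pb} (hE : X.InC d E) (hd0 : d0 < 1) (hH : 0 < X.H E) : 3 / (4 * C) ≤ X.kd d := by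
  have hL := hX.len_pos E
  have hcL : 0 < c * X.len E := mul_pos hc hL
  obtain ⟨e, he⟩ : ∃ e : ℝ, e = min (X.H E) (c * X.len E) / 2 := ⟨_, rfl⟩
  have hm : 0 < min (X.H E) (c * X.len E) := lt_min hH hcL
  have he0 : 0 < e := by
    rw [he]
    linarith
  have he1 : e < X.H E := by
    have := min_le_left (X.H E) (c * X.len E)
    rw [he]
    linarith
  have he2 : e < c * X.len E := by
    have := min_le_right (X.H E) (c * X.len E)
    rw [he]
    linarith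
  obtain ⟨A, hA, hAh⟩ := k4a_H_near hX E (τ := e / 4) (by linarith)
  have hHA := k4a_H_le_hor hX hA
  obtain ⟨A', h1, -, h3, h4⟩ := hext E (k4a_inC_mono hE hd hd0) A hA e he0 (by linarith) he2
  obtain ⟨F, hF⟩ := hX.rem_ex E A' d hE h3
  have hlen := hX.rem_len E A' F hF
  have hcomp := k4a_comp hX hF
  have hkd := k4a_H_le_kd hX (k4a_rem_inC hX hF hE)
  have hk0 := k4a_kd_nonneg hX d
  have h5 : X.kd d * X.len F ≤ X.kd d * (C * e) := mul_le_mul_of_nonneg_left (by rw [hlen]; exact h4) hk0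
  have h6 : 3 / 4 * e ≤ X.kd d * C * e := by
    rw [h1] at hcomp
    nlinarith
  have h7 : 3 / 4 ≤ X.kd d * C := le_of_mul_le_mul_right h6 he0
  rw [div_le_iff₀ (by positivity)]
  linarith

theorem k4a_R4_bdd (hX : X.Hub) : BddBelow {x : ℝ | ∃ d : ℝ, X.dst < d ∧ d < 1 ∧ x = X.kd d} :=
  ⟨0, by
    rintro x ⟨d, -, -, rfl⟩
    exact k4a_kd_nonneg hX d⟩

theorem k4a_R4_ne (hX : X.Hub) (hB : X.Bad) : {x : ℝ | ∃ d : ℝ, X.dst < d ∧ d < 1 ∧ x = X.kd d}.Nonempty := by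
  have h1 := k4a_dst_lt_one hX hB
  exact ⟨_, (1 + X.dst) / 2, by linarith, by linarith, rfl⟩

/-- `k ≤ k(d)` for `d_* < d < 1` -/
theorem k4a_kst_le_kd (hX : X.Hub) {d : ℝ} (hd : X.dst < d) (hd' : d < 1) : X.kst ≤ X.kd d := by
  exact csInf_le (k4a_R4_bdd hX) ⟨d, hd, hd', rfl⟩

/-- **L4.2.**  `d0 := (1 + d_*)/2`; for `d_* < d < 1`: `kd d ≥ kd (min d d0) ≥ 3/(4C)` (`k4a_bad_near`, `k4a_ratio_low`, `k4a_kd_mono`); `le_csInf` (the set is nonempty since `d_* < 1`). -/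
theorem k4a_kst_pos (hX : X.Hub) (hB : X.Bad) : 0 < X.kst := by
  have h1 := k4a_dst_lt_one hX hB
  have hd0 : (1 + X.dst) / 2 < 1 := by linarith
  obtain ⟨C, c, hC, hc, hext⟩ := hX.ext ((1 + X.dst) / 2) hd0
  have h2 : 3 / (4 * C) ≤ X.kst := le_csInf (k4a_R4_ne hX hB) (by
    rintro x ⟨d, hd, hd', rfl⟩
    have h3 : X.dst < min d ((1 + X.dst) / 2) := lt_min hd (by linarith)
    have h4 : min d ((1 + X.dst) / 2) < 1 := (min_le_left _ _).trans_lt hd'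
    obtain ⟨E, hE, hH⟩ := k4a_bad_near hX hB h3 h4
    exact (k4a_ratio_low hX hC hc hext (min_le_right _ _) hE hd0 hH).trans
      (k4a_kd_mono hX (min_le_left _ _) hd'))
  exact lt_of_lt_of_le (by positivity) h2

theorem k4a_kst_le_one (hX : X.Hub) (hB : X.Bad) : X.kst ≤ 1 := by
  have h1 := k4a_dst_lt_one hX hB
  exact (k4a_kst_le_kd hX (d := (1 + X.dst) / 2) (by linarith) (by linarith)).trans (k4a_kd_le_one hX _)

/-- **the modulus.**  `exists_lt_of_csInf_lt` gives `d1 ∈ (d_*, 1)` with `kd d1 < k + ε`; `δ0 := d1 - d_*`; monotonicity. -/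
theorem k4a_kd_near (hX : X.Hub) (hB : X.Bad) {ε : ℝ} (hε : 0 < ε) :
    ∃ δ0 : ℝ, 0 < δ0 ∧ X.dst + δ0 < 1 ∧ ∀ δ : ℝ, 0 < δ → δ ≤ δ0 → X.kst ≤ X.kd (X.dst + δ) ∧ X.kd (X.dst + δ) ≤ X.kst + ε := by
  obtain ⟨x, ⟨d1, hd1, hd1', rfl⟩, hlt⟩ := exists_lt_of_csInf_lt (k4a_R4_ne hX hB)
    (lt_add_of_pos_right X.kst hε)
  refine ⟨d1 - X.dst, by linarith, by linarith, fun δ hδ hδ' => ⟨?_, ?_⟩⟩
  · exact k4a_kst_le_kd hX (by linarith) (by linarith)
  · exact (k4a_kd_mono hX (by linarith) hd1').trans hlt.le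

/-! ## 5. Maximizing problems      (leaf L-252-S4A-R5: this section) -/

/-- (`k(d_* + δ) ≥ k > k - δ`: an element of the set defining `kd` above `k - δ`, `exists_lt_of_lt_csSup`) -/
theorem k4a_mx_ex (hX : X.Hub) (hB : X.Bad) {δ : ℝ} (hδ : 0 < δ) (hδ' : X.dst + δ < 1) : ∃ E : X.Pb, X.Mx δ E := by
  have hk : X.kst ≤ X.kd (X.dst + δ) := k4a_kst_le_kd hX (by linarith) hδ'
  obtain ⟨E0, hE0, _⟩ := k4a_bad_near hX hB (d := X.dst + δ) (by linarith) hδ'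
  have hlt : X.kst - δ < sSup {x : ℝ | ∃ E : X.Pb, X.InC (X.dst + δ) E ∧ x = X.H E / X.len E} := by
    have : X.kst - δ < X.kd (X.dst + δ) := by linarith
    exact this
  have hne : {x : ℝ | ∃ E : X.Pb, X.InC (X.dst + δ) E ∧ x = X.H E / X.len E}.Nonempty :=
    ⟨X.H E0 / X.len E0, E0, hE0, rfl⟩
  obtain ⟨x, ⟨E, hE, rfl⟩, hx⟩ := exists_lt_of_lt_csSup hne hlt
  exact ⟨E, hE, ((lt_div_iff₀ (hX.len_pos E)).1 hx).le⟩

theorem k4a_mx_mono (hX : X.Hub) {δ δ' : ℝ} {E : X.Pb} (h : X.Mx δ E) (hd : δ ≤ δ') (hd' : X.dst + δ' < 1) : X.Mx δ' E := by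
  refine ⟨k4a_inC_mono h.1 (by linarith) hd', le_trans ?_ h.2⟩
  exact mul_le_mul_of_nonneg_right (by linarith) (hX.len_pos E).le

/-- `H E ≤ k(d_* + δ) L` -/
theorem k4a_mx_H_le (hX : X.Hub) {δ : ℝ} {E : X.Pb} (h : X.Mx δ E) : X.H E ≤ X.kd (X.dst + δ) * X.len E := by
  exact k4a_H_le_kd hX h.1

/-- **EXCLUDED IMPROVEMENT (1), L4.6 (1), clean form: a known atlas at depth `ρ < L` costs at least `k ρ - σ L`, `σ = δ + (k(d_* + δ) - k)`.**
`k4a_atlas_low`:  `(k - δ) L ≤ hor A + kd (L - ρ)`, and `kd (L - ρ) = k (L - ρ) + (kd - k)(L - ρ) ≤ k (L - ρ) + (kd - k) L`  (`kd ≥ k` is a HYPOTHESIS here, `0 ≤ ρ`). -/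
theorem k4a_excl_depth (hX : X.Hub) {δ : ℝ} {E : X.Pb} (h : X.Mx δ E) (hk : X.kst ≤ X.kd (X.dst + δ)) (A : X.At E) (hA : X.dep A < X.len E) :
    X.kst * X.dep A - (δ + (X.kd (X.dst + δ) - X.kst)) * X.len E ≤ X.hor A := by
  have h1 := k4a_atlas_low hX h.1 A hA
  have h2 := h.2
  have h3 := mul_le_mul_of_nonneg_right hk (hX.dep_nonneg E A)
  nlinarith

/-- the same with a tolerance -/
theorem k4a_excl_depth_eps (hX : X.Hub) (hB : X.Bad) {θ : ℝ} (hθ : 0 < θ) : ∃ δ0 : ℝ, 0 < δ0 ∧ X.dst + δ0 < 1 ∧ ∀ δ : ℝ, 0 < δ → δ ≤ δ0 → ∀ E : X.Pb, X.Mx δ E →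
    ∀ A : X.At E, X.dep A < X.len E → X.kst * X.dep A - θ * X.len E ≤ X.hor A := by
  obtain ⟨δ1, hδ1, hδ1', hn⟩ := k4a_kd_near hX hB (ε := θ / 2) (by linarith)
  refine ⟨min δ1 (θ / 2), lt_min hδ1 (by linarith), by linarith [min_le_left δ1 (θ / 2)], ?_⟩
  intro δ hδ hδle E hE A hA
  obtain ⟨hk1, hk2⟩ := hn δ hδ (hδle.trans (min_le_left _ _))
  have h1 := k4a_excl_depth hX hE hk1 A hA
  have h2 : δ ≤ θ / 2 := hδle.trans (min_le_right _ _)
  have h3 : (δ + (X.kd (X.dst + δ) - X.kst)) * X.len E ≤ θ * X.len E :=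
    mul_le_mul_of_nonneg_right (by linarith) (hX.len_pos E).le
  linarith

/-- **C4.5, first half**: a depth-zero, horizon-zero known normalisation of a `δ`-maximizing problem is `δ`-maximizing (`k4a_rem_inC`, `k4a_comp`, `rem_len`). -/
theorem k4a_zero_depth (hX : X.Hub) {δ : ℝ} {E F : X.Pb} {A : X.At E} (h : X.Mx δ E) (hR : X.Rem E A F) (h0 : X.dep A = 0) (h1 : X.hor A = 0) : X.Mx δ F := by
  refine ⟨k4a_rem_inC hX hR h.1, ?_⟩
  have h2 := k4a_comp hX hR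
  have h3 := hX.rem_len E A F hR
  have h4 := h.2
  rw [h3, h0, sub_zero]
  linarith

end Claimed.Agent.R252
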